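import Vale.Agent.P011.One.Close
import Vale.Agent.P011.H359.SolvA
import Vale.Agent.P011.RP.Basic

/-!
The space of antisymmetric elements which anticommute with a symmetric square root, over a
completion.
-/

open Module Polynomial TensorProduct NumberField IsDedekindDomain

set_option linter.unusedSectionVars false

namespace Vale.Agent.P011.H248

open Vale.Agent.P011.Arith Vale.Agent.P011.Even Vale.Agent.P011.Two Vale.Agent.P011.One

/-- A ring with a map from `D` in which every pattern of squares is realized by an antisymmetric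
element. -/
def LocOK (k : Type) {D : Type} [Field k] [DivisionRing D] [StarRing D] [Algebra k D] (F : Type)
    [Field F] [Algebra k F] (m : ℕ) (t : D) : Prop :=
  ∃ (A : Type) (_ : Ring A) (_ : Algebra F A) (_ : Module.Finite F A) (g : D →+* A),
    (∀ (c : k) (x : D), g (c • x) = algebraMap k F c • g x) ∧
    ∀ l : Fin m → F, Function.Injective (fun i => l i * l i) →
      ∃ X ∈ Submodule.span F (g '' {w | star w = -w ∧ w * t = -(t * w)}),
        LinearIndependent F (fun i : Fin m => (X * X) ^ (i : ℕ)) ∧
        aeval (X * X) (∏ i, (Polynomial.X - C (l i * l i))) = 0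

variable {k K D : Type} [Field k] [NumberField k] [Field K] [StarRing K]
  [DivisionRing D] [StarRing D] [Algebra k K] [Algebra k D] [Algebra K D] [IsScalarTower k K D]
  {d : kˣ} {s : K} {a : kˣ} {t : D}

/-- The projection to the antisymmetric elements which anticommute with `t`. -/
noncomputable def pr (hS : Setting k K D d s) (a : kˣ) (t : D) : D →ₗ[k] D :=
  (4 : k)⁻¹ • ((LinearMap.id - hS.sig) -
    (a : k)⁻¹ • ((LinearMap.mulLeft k t).comp ((LinearMap.mulRight k t).comp
      (LinearMap.id - hS.sig))))

theorem pr_apply (hS : Setting k K D d s) (x : D) :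
    pr hS a t x = (4 : k)⁻¹ • ((x - star x) - (a : k)⁻¹ • (t * ((x - star x) * t))) := rfl

theorem pr_mem (hS : Setting k K D d s) (ht : t ∈ Xa D a) (x : D) :
    star (pr hS a t x) = -pr hS a t x ∧ pr hS a t x * t = -(t * pr hS a t x) := by
  have hst : ∀ (c : k) (x : D), star (c • x) = c • star x := fun c x => hS.sig.map_smul c x
  have htt : ∀ y : D, t * (t * y) = (a : k) • y := fun y => by
    rw [← mul_assoc, ht.2, ← Algebra.smul_def]
  have htt' : ∀ y : D, y * t * t = (a : k) • y := fun y => by
    rw [mul_assoc, ht.2, ← Algebra.commutes, ← Algebra.smul_def]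
  have ha : (a : k) ≠ 0 := a.ne_zero
  rw [pr_apply]
  constructor
  · rw [hst, star_sub, hst, star_mul, star_mul, star_sub, star_star, ht.1]
    rw [← smul_neg]
    congr 1
    rw [neg_sub, sub_eq_sub_iff_add_eq_add]
    have : t * (star x - x) * t = -(t * ((x - star x) * t)) := by noncomm_ring
    rw [this, smul_neg]
    abel
  · rw [smul_mul_assoc, mul_smul_comm, ← smul_neg]
    congr 1
    rw [sub_mul, mul_sub, smul_mul_assoc, mul_smul_comm, htt, ← mul_assoc t, mul_assoc _ t t,
      ht.2, ← Algebra.commutes, ← Algebra.smul_def, smul_smul, smul_smul, inv_mul_cancel₀ ha,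
      one_smul, one_smul, neg_sub]

section tensor

variable {F : Type} [Field F] [Algebra k F]

theorem pr_base (hS : Setting k K D d s) (Y : F ⊗[k] D) :
    (pr hS a t).baseChange F Y = (algebraMap k F (4 : k)⁻¹) • ((Y - hS.sig.baseChange F Y) -
      (algebraMap k F (a : k)⁻¹) • ((1 ⊗ₜ t) * ((Y - hS.sig.baseChange F Y) * (1 ⊗ₜ t)))) := by
  induction Y using TensorProduct.induction_on with
  | zero => simp
  | tmul c x =>
    have e1 : ∀ (q : k) (c : F) (x : D), algebraMap k F q • (c ⊗ₜ[k] x) = c ⊗ₜ[k] (q • x) := by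
      intro q c x
      rw [TensorProduct.smul_tmul', smul_eq_mul, ← Algebra.smul_def, TensorProduct.smul_tmul]
    rw [LinearMap.baseChange_tmul, LinearMap.baseChange_tmul, ← TensorProduct.tmul_sub,
      Algebra.TensorProduct.tmul_mul_tmul, Algebra.TensorProduct.tmul_mul_tmul, mul_one, one_mul,
      e1, ← TensorProduct.tmul_sub, e1]
    rfl
  | add x y hx hy =>
    rw [map_add, hx, hy, map_add, ← smul_add]
    congr 1
    rw [add_sub_add_comm x y, add_mul, mul_add, smul_add]
    abel

theorem base_mem_span (hS : Setting k K D d s) (ht : t ∈ Xa D a) (Y : F ⊗[k] D) :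
    (pr hS a t).baseChange F Y ∈ Submodule.span F
      ((Algebra.TensorProduct.includeRight : D →ₐ[k] F ⊗[k] D).toRingHom ''
        {w | star w = -w ∧ w * t = -(t * w)}) := by
  induction Y using TensorProduct.induction_on with
  | zero => rw [map_zero]; exact Submodule.zero_mem _
  | tmul c x =>
    rw [LinearMap.baseChange_tmul]
    have e : c ⊗ₜ[k] pr hS a t x = c • ((Algebra.TensorProduct.includeRight :
        D →ₐ[k] F ⊗[k] D).toRingHom (pr hS a t x)) := by
      change _ = c • ((1 : F) ⊗ₜ[k] pr hS a t x)
      rw [TensorProduct.smul_tmul', smul_eq_mul, mul_one]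
    rw [e]
    exact Submodule.smul_mem _ _ (Submodule.subset_span ⟨_, pr_mem hS ht x, rfl⟩)
  | add x y hx hy =>
    rw [map_add]
    exact Submodule.add_mem _ hx hy

/-- The antisymmetric elements over an extension. -/
theorem mem_span_tensor (hS : Setting k K D d s) (ht : t ∈ Xa D a) {Y : F ⊗[k] D}
    (hY : hS.sig.baseChange F Y = -Y) (hYt : Y * (1 ⊗ₜ t) = -((1 ⊗ₜ t) * Y)) :
    Y ∈ Submodule.span F
      ((Algebra.TensorProduct.includeRight : D →ₐ[k] F ⊗[k] D).toRingHom ''
        {w | star w = -w ∧ w * t = -(t * w)}) := by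
  have h1 := base_mem_span (F := F) hS ht Y
  have h4 : (algebraMap k F 4⁻¹ : F) * 4 = 1 := by
    have : (4 : F) = algebraMap k F 4 := (map_ofNat (algebraMap k F) 4).symm
    rw [this, ← map_mul, inv_mul_cancel₀ (by norm_num), map_one]
  have htt : ((1 : F) ⊗ₜ[k] t) * (1 ⊗ₜ t) = algebraMap k F (a : k) • (1 : F ⊗[k] D) := by
    rw [Algebra.TensorProduct.tmul_mul_tmul, ht.2, mul_one, Algebra.TensorProduct.one_def,
      TensorProduct.smul_tmul', smul_eq_mul, mul_one, Algebra.algebraMap_eq_smul_one,
      ← TensorProduct.smul_tmul, Algebra.smul_def, mul_one]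
  have ha : (a : k) ≠ 0 := a.ne_zero
  have e : (pr hS a t).baseChange F Y = Y := by
    rw [pr_base, hY, sub_neg_eq_add, add_mul, hYt, mul_add, mul_neg, ← mul_assoc, htt,
      smul_mul_assoc, one_mul, smul_add, smul_neg, smul_smul, ← map_mul, inv_mul_cancel₀ ha,
      map_one, one_smul]
    have e2 : Y + Y - (-Y + -Y) = (4 : F) • Y := by
      have : (4 : F) = 1 + 1 + 1 + 1 := by norm_num
      rw [this, add_smul, add_smul, add_smul, one_smul]
      abel
    rw [e2, smul_smul, h4, one_smul]
  rwa [e] at h1

end tensor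

section split

variable {F : Type} [Field F] [Algebra k F] [Algebra K F]

/-- The antisymmetric elements in a splitting. -/
theorem mem_span_split [CharZero F] (hS : Setting k K D d s) (ht : t ∈ Xa D a) {n : ℕ} (hn : 0 < n)
    (hdeg : finrank K D = n ^ 2) (hkK : ∀ c : k, algebraMap K F (algebraMap k K c) = algebraMap k F c)
    (f : D →ₐ[K] Matrix (Fin n) (Fin n) F) {Y : Matrix (Fin n) (Fin n) F}
    (hYt : Y * f t = -(f t * Y)) :
    Y ∈ Submodule.span F (f.toRingHom '' {w | star w = -w ∧ w * t = -(t * w)}) := by
  have := hS.fin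
  have := hS.cen
  have : CharZero K := charZero_of_injective_algebraMap (algebraMap k K).injective
  obtain ⟨S, hSd⟩ : ∃ S : Submodule F (Matrix (Fin n) (Fin n) F), S = Submodule.span F
    (f.toRingHom '' {w | star w = -w ∧ w * t = -(t * w)}) := ⟨_, rfl⟩
  have h2F : (2 : F) ≠ 0 := two_ne_zero
  have h2D : (2 : D) ≠ 0 := by
    have : CharZero D := charZero_of_injective_algebraMap (algebraMap K D).injective
    exact two_ne_zero
  have hfs : ∀ (c : K) (x : D), f (algebraMap K D c * x) = algebraMap K F c • f x := by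
    intro c x
    rw [map_mul, AlgHom.commutes, Algebra.algebraMap_eq_smul_one, smul_mul_assoc, one_mul,
      algebraMap_smul]
  have ht2 : f t * f t = algebraMap k F (a : k) • (1 : Matrix (Fin n) (Fin n) F) := by
    rw [← map_mul, ht.2, IsScalarTower.algebraMap_apply k K D, AlgHom.commutes,
      Algebra.algebraMap_eq_smul_one, ← algebraMap_smul F (algebraMap k K (a : k)), hkK]
  have haF : (algebraMap k F (a : k)) ≠ 0 := (_root_.map_ne_zero _).mpr a.ne_zero
  -- the elements of `D` which anticommute with `t`
  have hanti : ∀ z : D, z * t = -(t * z) → f z ∈ S := by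
    intro z hz
    have hzs : star z * t = -(t * star z) := by
      have h1 := congrArg star hz
      rw [star_mul, star_neg, star_mul, ht.1] at h1
      rw [h1, neg_neg]
    have h1 : f (z - star z) ∈ S := by
      rw [hSd]
      refine Submodule.subset_span ⟨z - star z, ⟨?_, ?_⟩, rfl⟩
      · rw [star_sub, star_star, neg_sub]
      · rw [sub_mul, hz, hzs, mul_sub]
        abel
    have h3 : f (algebraMap K D s * (z + star z)) ∈ S := by
      rw [hSd]
      refine Submodule.subset_span ⟨algebraMap K D s * (z + star z), ⟨?_, ?_⟩, rfl⟩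
      · rw [star_mul, star_add, star_star, Two.star_sD hS, mul_neg, Algebra.commutes,
          add_comm (star z)]
      · have e : (z + star z) * t = -(t * (z + star z)) := by
          rw [add_mul, hz, hzs, mul_add, neg_add]
        rw [mul_assoc, e, mul_neg, ← mul_assoc t, ← Algebra.commutes s t, mul_assoc]
    have hs0 : algebraMap K F s ≠ 0 := (_root_.map_ne_zero _).mpr hS.s_ne
    rw [hfs] at h3
    have h4 := S.smul_mem (algebraMap K F s)⁻¹ h3
    rw [smul_smul, inv_mul_cancel₀ hs0, one_smul] at h4
    have h5 := S.smul_mem (2 : F)⁻¹ (S.add_mem h1 h4)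
    rw [← map_add] at h5
    have h6 : z - star z + (z + star z) = algebraMap K D 2 * z := by
      rw [map_ofNat, two_mul]
      abel
    rw [h6, hfs, map_ofNat, smul_smul, inv_mul_cancel₀ h2F, one_smul] at h5
    exact h5
  -- the projection
  have hall : ∀ Z : Matrix (Fin n) (Fin n) F,
      Z - (algebraMap k F (a : k))⁻¹ • (f t * Z * f t) ∈ S := by
    intro Z
    have hZ : Z ∈ Submodule.span F (Set.range f) := by
      rw [RP.span_split hn hdeg f]
      exact Submodule.mem_top
    induction hZ using Submodule.span_induction with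
    | mem x hx =>
      obtain ⟨x, rfl⟩ := hx
      have e : f x - (algebraMap k F (a : k))⁻¹ • (f t * f x * f t) =
          f (x - algebraMap k D (a : k)⁻¹ * (t * x * t)) := by
        rw [map_sub, IsScalarTower.algebraMap_apply k K D, hfs, hkK, map_mul, map_mul, map_inv₀]
      rw [e]
      apply hanti
      have e1 : t * x * t * t = algebraMap k D (a : k) * (t * x) := by
        rw [mul_assoc, ht.2, ← Algebra.commutes]
      have e2 : t * (t * x * t) = algebraMap k D (a : k) * (x * t) := by
        rw [mul_assoc, ← mul_assoc, ht.2]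
      have ha0 : algebraMap k D (a : k)⁻¹ * algebraMap k D (a : k) = 1 := by
        rw [← map_mul, inv_mul_cancel₀ a.ne_zero, map_one]
      rw [sub_mul, mul_sub, mul_assoc, e1, ← mul_assoc, ha0, one_mul, ← mul_assoc t,
        ← Algebra.commutes (a : k)⁻¹ t, mul_assoc _ t, e2, ← mul_assoc, ha0, one_mul, neg_sub]
    | zero => simp
    | add x y _ _ hx hy =>
      have e : x + y - (algebraMap k F (a : k))⁻¹ • (f t * (x + y) * f t) =
          (x - (algebraMap k F (a : k))⁻¹ • (f t * x * f t)) +
          (y - (algebraMap k F (a : k))⁻¹ • (f t * y * f t)) := by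
        rw [mul_add, add_mul, smul_add]
        abel
      rw [e]
      exact S.add_mem hx hy
    | smul c x _ hx =>
      have e : c • x - (algebraMap k F (a : k))⁻¹ • (f t * (c • x) * f t) =
          c • (x - (algebraMap k F (a : k))⁻¹ • (f t * x * f t)) := by
        rw [mul_smul_comm, smul_mul_assoc, smul_sub, smul_comm c]
      rw [e]
      exact S.smul_mem _ hx
  have h7 := hall Y
  have e : f t * Y * f t = -(algebraMap k F (a : k) • Y) := by
    rw [mul_assoc, hYt, mul_neg, ← mul_assoc, ht2, smul_mul_assoc, one_mul]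
  rw [e, smul_neg, smul_smul, inv_mul_cancel₀ haF, one_smul, sub_neg_eq_add, ← two_smul F Y] at h7
  have h8 := S.smul_mem (2 : F)⁻¹ h7
  rw [smul_smul, inv_mul_cancel₀ h2F, one_smul] at h8
  rwa [hSd] at h8

end split

end Vale.Agent.P011.H248
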