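import Vale.Agent.P011.H248.JNS
import Vale.Agent.P011.H248.JSpan
import Vale.Agent.P011.Pow.CentT

/-!
Antisymmetric elements with split square at the places which split.
-/

open Module Polynomial TensorProduct NumberField IsDedekindDomain Matrix

set_option linter.unusedSectionVars false

namespace Vale.Agent.P011.H248

open Vale.Agent.P011.Arith Vale.Agent.P011.Even Vale.Agent.P011.Two Vale.Agent.P011.One

section lin

variable {F : Type} [Field F] {m n : ℕ}

/-- The model of a square root of a nonsquare. -/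
theorem exists_cx (hn : n = 2 * m) {T : Matrix (Fin n) (Fin n) F} {a : F} (ha : ¬ IsSquare a)
    (hT : T * T = a • 1) :
    ∃ (P : Matrix (Fin n) (Fin m ⊕ Fin m) F) (P' : Matrix (Fin m ⊕ Fin m) (Fin n) F),
      P * P' = 1 ∧ P' * P = 1 ∧ T * P = P * Matrix.fromBlocks 0 (a • 1) 1 0 := by
  classical
  have := fact_of_not_square ha
  let L := QuadraticAlgebra F a 0
  let V := Fin n → F
  let Φ : L →ₐ[F] Module.End F V := QuadraticAlgebra.lift ⟨T.mulVecLin, by
    apply LinearMap.ext
    intro x
    change T *ᵥ (T *ᵥ x) = _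
    rw [Matrix.mulVec_mulVec, hT, zero_smul, add_zero, Matrix.smul_mulVec, Matrix.one_mulVec]
    rfl⟩
  let _ : Module L V := Module.compHom V Φ.toRingHom
  have hs : ∀ (z : L) (x : V), z • x = Φ z x := fun _ _ => rfl
  have : IsScalarTower F L V := ⟨fun c z x => by
    rw [hs, hs, map_smul]
    rfl⟩
  have : Module.Finite L V := Module.Finite.of_restrictScalars_finite F L V
  have hfr : finrank L V = m := by
    have h1 := Module.finrank_mul_finrank F L V
    have h2 : finrank F L = 2 := QuadraticAlgebra.finrank_eq_two _ _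
    have h3 : finrank F V = n := Module.finrank_fin_fun F
    rw [h2, h3] at h1
    omega
  let bL : Basis (Fin m) L V := Module.finBasisOfFinrankEq L V hfr
  let e : Fin 2 × Fin m ≃ Fin m ⊕ Fin m :=
    (Equiv.prodCongr finTwoEquiv (Equiv.refl _)).trans (Equiv.boolProdEquivSum _)
  let b : Basis (Fin m ⊕ Fin m) F V := ((QuadraticAlgebra.basis a 0).smulTower bL).reindex e
  have hb0 : (QuadraticAlgebra.basis a 0) (0 : Fin 2) = 1 := by
    apply (QuadraticAlgebra.basis a 0).repr.injective
    rw [Basis.repr_self]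
    ext i
    fin_cases i
    · simp [QuadraticAlgebra.basis_repr_apply]
      rfl
    · simp [QuadraticAlgebra.basis_repr_apply]
      rfl
  have hb1 : (QuadraticAlgebra.basis a 0) (1 : Fin 2) = (⟨0, 1⟩ : L) := by
    apply (QuadraticAlgebra.basis a 0).repr.injective
    rw [Basis.repr_self]
    ext i
    fin_cases i <;> simp [QuadraticAlgebra.basis_repr_apply]
  have hinl : ∀ i, b (.inl i) = bL i := by
    intro i
    have h1 : b (.inl i) = ((QuadraticAlgebra.basis a 0).smulTower bL) (0, i) := by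
      rw [Basis.reindex_apply]
      rfl
    rw [h1, Basis.smulTower_apply, hb0, one_smul]
  have hinr : ∀ i, b (.inr i) = T *ᵥ bL i := by
    intro i
    have h1 : b (.inr i) = ((QuadraticAlgebra.basis a 0).smulTower bL) (1, i) := by
      rw [Basis.reindex_apply]
      rfl
    rw [h1, Basis.smulTower_apply, hb1, hs]
    change ((0 : F) • (1 : Module.End F V) + (1 : F) • T.mulVecLin) (bL i) = _
    rw [zero_smul, one_smul, zero_add, Matrix.mulVecLin_apply]
  obtain ⟨P, P', h1, h3, h4⟩ := exists_chg b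
  refine ⟨P, P', h1, h3, h4 T _ ?_⟩
  rintro (i | i)
  · rw [hinl, Fintype.sum_sum_type]
    simp [Matrix.fromBlocks_apply₁₁, Matrix.fromBlocks_apply₂₁, Matrix.one_apply, hinr]
  · rw [hinr, Matrix.mulVec_mulVec, hT, Fintype.sum_sum_type, Matrix.smul_mulVec,
      Matrix.one_mulVec]
    simp [Matrix.fromBlocks_apply₁₂, Matrix.fromBlocks_apply₂₂, Matrix.one_apply, hinl]

/-- Matrices which anticommute with a square root of a scalar. -/
theorem exists_anti_mat [CharZero F] (hn : n = 2 * m) {T X0 : Matrix (Fin n) (Fin n) F} {a : F}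
    (ha0 : a ≠ 0) (hT : T * T = a • 1) (hX0 : IsUnit X0) (hXT : X0 * T = -(T * X0))
    (l : Fin m → F) (hl : Function.Injective fun i => l i * l i) :
    ∃ X : Matrix (Fin n) (Fin n) F, X * T = -(T * X) ∧
      LinearIndependent F (fun i : Fin m => (X * X) ^ (i : ℕ)) ∧
      aeval (X * X) (∏ i, (Polynomial.X - C (l i * l i))) = 0 := by
  classical
  have key : ∀ (P : Matrix (Fin n) (Fin m ⊕ Fin m) F) (P' : Matrix (Fin m ⊕ Fin m) (Fin n) F)
      (S Y : Matrix (Fin m ⊕ Fin m) (Fin m ⊕ Fin m) F), P * P' = 1 → P' * P = 1 →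
      T * P = P * S → Y * S = -(S * Y) →
      Y * Y = Matrix.diagonal (Sum.elim (fun i => l i * l i) fun i => l i * l i) →
      ∃ X : Matrix (Fin n) (Fin n) F, X * T = -(T * X) ∧
      LinearIndependent F (fun i : Fin m => (X * X) ^ (i : ℕ)) ∧
      aeval (X * X) (∏ i, (Polynomial.X - C (l i * l i))) = 0 := by
    intro P P' S Y h1 h3 h4 h5 h6
    refine ⟨P * Y * P', ?_, ?_⟩
    · have h7 : P' * T = S * P' := by
        calc P' * T = P' * (T * P) * P' := by
              rw [Matrix.mul_assoc, Matrix.mul_assoc, h1, Matrix.mul_one]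
          _ = S * P' := by rw [h4, ← Matrix.mul_assoc, h3, Matrix.one_mul]
      rw [Matrix.mul_assoc, h7, ← Matrix.mul_assoc, Matrix.mul_assoc P, h5, Matrix.mul_neg,
        Matrix.neg_mul, ← Matrix.mul_assoc, ← h4]
      simp only [Matrix.mul_assoc]
    · refine of_eig (P := P) (P' := P') h1 h3 hl ?_
      calc P * Y * P' * (P * Y * P') * P
          = P * Y * (P' * P) * Y * (P' * P) := by simp only [Matrix.mul_assoc]
        _ = P * (Y * Y) := by
            rw [h3, Matrix.mul_one, Matrix.mul_one, Matrix.mul_assoc]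
        _ = _ := by rw [h6]; rfl
  by_cases ha : IsSquare a
  · obtain ⟨r, hr⟩ := ha
    have hr0 : r ≠ 0 := by
      rintro rfl
      rw [mul_zero] at hr
      exact ha0 hr
    obtain ⟨P, P', h1, h3, h4⟩ := exists_eig_mat hn two_ne_zero T X0 hr0 (by rw [← hr]; exact hT)
      hX0 hXT
    exact key P P' (TB m r) (XB l) h1 h3 h4 (XB_TB l r) (XB_sq l)
  · obtain ⟨P, P', h1, h3, h4⟩ := exists_cx hn ha hT
    refine key P P' _ (Matrix.fromBlocks (Matrix.diagonal l) 0 0 (-Matrix.diagonal l)) h1 h3 h4
      ?_ ?_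
    · rw [Matrix.fromBlocks_multiply, Matrix.fromBlocks_multiply, Matrix.fromBlocks_neg]
      simp only [Matrix.mul_zero, Matrix.zero_mul, zero_add, add_zero, Matrix.mul_neg,
        Matrix.mul_smul, Matrix.mul_one, Matrix.smul_mul, Matrix.one_mul, neg_neg, neg_zero,
        smul_zero]
    · rw [Matrix.fromBlocks_multiply]
      simp only [Matrix.mul_zero, Matrix.zero_mul, zero_add, add_zero, Matrix.mul_neg,
        Matrix.neg_mul, Matrix.diagonal_mul_diagonal, neg_neg, neg_zero]
      rw [Matrix.fromBlocks_diagonal]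

end lin

variable {k K D : Type} [Field k] [NumberField k] [Field K] [NumberField K] [StarRing K]
  [DivisionRing D] [StarRing D] [Algebra k K] [Algebra k D] [Algebra K D] [IsScalarTower k K D]
  {d : kˣ} {s : K} {a : kˣ} {t : D}

theorem locOK_split (hS : Setting k K D d s) {m : ℕ} (hm : 0 < m)
    (hdeg : finrank K D = (2 * m) ^ 2)
    (ht : t ∈ Xa D a) {v : HeightOneSpectrum (𝓞 k)} (hv : d ∈ LS (v.valuation k))
    (hR : v ∉ Pow.Ram k K D (2 * m)) {j : D} (hj0 : j ≠ 0)
    (hjt : j * t = -(t * j)) : LocOK k (v.adicCompletion k) m t := by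
  classical
  have i1 := hS.fin
  have i2 := hS.cen
  let F := v.adicCompletion k
  obtain ⟨r, hr⟩ := (isSquare_iff v d).mpr hv
  obtain ⟨φ, -⟩ := exists_hom (L := v.adicCompletion k) hS.ns hS.sq (Setting.span hS)
    (sL := r) (by rw [pow_two, hr])
  obtain ⟨w, hw, hle, hlt⟩ := exists_place_of_hom (φ : K →+* v.adicCompletion k) φ.commutes
  have hspl := Pow.spl_of_not_ram hR hw (φ : K →+* v.adicCompletion k) hle hlt
  let _ : Algebra K F := (φ : K →+* v.adicCompletion k).toAlgebra
  obtain ⟨f⟩ := W.Spl.exists_algHom (R := F) hspl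
  have hkK : ∀ c : k, algebraMap K F (algebraMap k K c) = algebraMap k F c := φ.commutes
  have hfk : ∀ (c : k) (x : D), f (c • x) = algebraMap k F c • f x := by
    intro c x
    have e : c • x = algebraMap K D (algebraMap k K c) * x := by
      rw [Algebra.smul_def, IsScalarTower.algebraMap_apply k K D]
    rw [e, map_mul, AlgHom.commutes, Algebra.algebraMap_eq_smul_one, smul_mul_assoc, one_mul,
      ← algebraMap_smul F (algebraMap k K c), hkK]
  have hTT : f t * f t = (algebraMap k F (a : k)) • 1 := by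
    rw [← map_mul, ht.2, Algebra.algebraMap_eq_smul_one, hfk, map_one]
  have hX0 : IsUnit (f j) := IsUnit.map f (IsUnit.mk0 j hj0)
  refine ⟨Matrix (Fin (2 * m)) (Fin (2 * m)) F, inferInstance, inferInstance, inferInstance,
    f.toRingHom, hfk, ?_⟩
  intro l hl
  obtain ⟨X, hX1, hX2, hX3⟩ := exists_anti_mat (F := F) rfl
    ((_root_.map_ne_zero (algebraMap k F)).mpr a.ne_zero) hTT hX0
    (by rw [← map_mul, hjt, map_neg, map_mul]) l hl
  exact ⟨X, mem_span_split hS ht (by omega) hdeg hkK f hX1, hX2, hX3⟩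

end Vale.Agent.P011.H248
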