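import Vale.Agent.P011.H248.JSpan
import Vale.Agent.P011.H872.GF.NewtC
import Vale.Agent.P011.H896.DblDet
import Vale.Agent.P011.Even.MinCont

/-!
Antisymmetric elements close to a local solution.
-/

open Module Polynomial TensorProduct NumberField IsDedekindDomain

set_option linter.unusedSectionVars false

namespace Vale.Agent.P011.H248

open Vale.Agent.P011.Arith Vale.Agent.P011.Even Vale.Agent.P011.Two Vale.Agent.P011.One

/-- Coordinates for elements of a span. -/
theorem exists_coord {k D F A : Type} [Field k] [DivisionRing D] [Algebra k D] [Field F]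
    [Algebra k F] [Ring A] [Algebra F A] (g : D →+* A)
    (hg : ∀ (c : k) (x : D), g (c • x) = algebraMap k F c • g x) {M : ℕ} (W : Fin M → D)
    {U : Set D} (hU : ∀ w ∈ U, w ∈ Submodule.span k (Set.range W)) {X : A}
    (hX : X ∈ Submodule.span F (g '' U)) : ∃ b : Fin M → F, X = ∑ i, b i • g (W i) := by
  have h1 : Submodule.span F (g '' U) ≤ Submodule.span F (Set.range fun i => g (W i)) := by
    rw [Submodule.span_le]
    rintro _ ⟨w, hw, rfl⟩
    obtain ⟨c, hc⟩ := (Submodule.mem_span_range_iff_exists_fun k).mp (hU w hw)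
    rw [← hc, map_sum]
    refine Submodule.sum_mem _ fun i _ => ?_
    rw [hg]
    exact Submodule.smul_mem _ _ (Submodule.subset_span ⟨i, rfl⟩)
  obtain ⟨b, hb⟩ := (Submodule.mem_span_range_iff_exists_fun F).mp (h1 hX)
  exact ⟨b, hb.symm⟩

section

variable {k D F A : Type} [Field k] [DivisionRing D] [Algebra k D] [NormedField F]
  [Algebra k F] [Ring A] [Algebra F A] {M : ℕ} {ι : Type} [Fintype ι]
  (BA : Basis ι F A) (g : D →+* A) (hg : ∀ (a : k) x, g (a • x) = algebraMap k F a • g x)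

include BA hg in
/-- The squares of the elements of a space close to a given element. -/
theorem near_sq (W : Fin M → D) (b : Fin M → F) {n : ℕ}
    (hli : LinearIndependent F (fun i : Fin n =>
      ((∑ j, b j • g (W j)) * (∑ j, b j • g (W j))) ^ (i : ℕ)))
    {q : F[X]} (hq : q.Monic) (hqn : q.natDegree = n)
    (hq0 : aeval ((∑ j, b j • g (W j)) * (∑ j, b j • g (W j))) q = 0)
    {ε : ℝ} (hε : 0 < ε) :
    ∃ δ : ℝ, 0 < δ ∧ ∀ c : Fin M → k, (∀ j, ‖algebraMap k F (c j) - b j‖ < δ) →
      LinearIndependent k (fun i : Fin n =>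
        ((∑ j, c j • W j) * (∑ j, c j • W j)) ^ (i : ℕ)) ∧
      ∀ m : k[X], m.Monic → m.natDegree = n →
        aeval ((∑ j, c j • W j) * (∑ j, c j • W j)) m = 0 →
        ∀ i, ‖algebraMap k F (m.coeff i) - q.coeff i‖ < ε := by
  classical
  let X : (Fin M → F) → A := fun y => ∑ j, y j • g (W j)
  have hX : CtsAt BA X b := by
    intro l
    have h1 : (fun y => BA.repr (X y) l) = fun y : Fin M → F =>
        ∑ j, y j * BA.repr (g (W j)) l := by
      funext y
      rw [map_sum, Finsupp.finsetSum_apply]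
      exact Finset.sum_congr rfl fun j _ => by rw [map_smul, Finsupp.smul_apply, smul_eq_mul]
    rw [h1]
    exact tendsto_finsetSum _ fun j _ => (continuousAt_apply j b).mul continuousAt_const
  let Z : (Fin M → F) → A := fun y => X y * X y
  have hZ : CtsAt BA Z b := hX.mul hX
  have hev := near_minpoly hZ hli hq hqn hq0 hε
  obtain ⟨δ, hδ, hball⟩ := Metric.eventually_nhds_iff.mp hev
  refine ⟨δ, hδ, fun c hc => ?_⟩
  have hXβ : X (fun j => algebraMap k F (c j)) = g (∑ j, c j • W j) := by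
    rw [map_sum]
    exact Finset.sum_congr rfl fun j _ => (hg _ _).symm
  have hZβ : Z (fun j => algebraMap k F (c j)) =
      g ((∑ j, c j • W j) * (∑ j, c j • W j)) := by
    change X _ * X _ = _
    rw [hXβ, map_mul]
  obtain ⟨h1, h2⟩ := hball (y := fun j => algebraMap k F (c j)) (by
    rw [dist_pi_lt_iff hδ]
    intro j
    rw [dist_eq_norm]
    exact hc j)
  rw [hZβ] at h1 h2
  set z := (∑ j, c j • W j) * (∑ j, c j • W j) with hz
  refine ⟨?_, fun m hm hmn hm0 i => ?_⟩
  · rw [Fintype.linearIndependent_iff] at h1 ⊢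
    intro a ha i
    have h3 := h1 (fun i => algebraMap k F (a i)) (by
      have h4 := congrArg g ha
      rw [map_sum, map_zero] at h4
      rw [← h4]
      exact Finset.sum_congr rfl fun i _ => by rw [hg, map_pow]) i
    exact (map_eq_zero (algebraMap k F)).mp h3
  · have h3 := h2 (m.map (algebraMap k F)) (hm.map _) (by rw [natDegree_map, hmn]) (by
      rw [aeval_eq_sum_range, natDegree_map]
      rw [aeval_eq_sum_range] at hm0
      have h4 := congrArg g hm0
      rw [map_sum, map_zero] at h4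
      rw [← h4]
      exact Finset.sum_congr rfl fun i _ => by rw [hg, map_pow, coeff_map]) i
    rwa [coeff_map] at h3

end

section newton

variable {F : Type} [NontriviallyNormedField F] [IsUltrametricDist F] [CompleteSpace F]

/-- Polynomials close to a product of linear factors whose roots have different absolute
values. -/
theorem near_newton {m : ℕ} {r : Fin m → F} (hr0 : ∀ i, r i ≠ 0)
    (hr : ∀ i j, i < j → ‖r i‖ < ‖r j‖) : ∃ ε : ℝ, 0 < ε ∧ ∀ P : F[X], P.Monic →
      P.natDegree = m → (∀ i, ‖P.coeff i - (∏ i, (X - C (r i))).coeff i‖ < ε) →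
      P.Splits ∧ ∀ x, P.IsRoot x → ∃ i, ‖x‖ = ‖r i‖ := by
  obtain ⟨g1, g2⟩ := H872.GF.norm_coeff_prod m r hr0 hr
  obtain ⟨q, hq⟩ : ∃ q : F[X], q = ∏ i, (X - C (r i)) := ⟨_, rfl⟩
  have hqm : q.Monic := by
    rw [hq]
    exact monic_prod_of_monic _ _ fun i _ => monic_X_sub_C _
  have hqd : q.natDegree = m := by
    rw [hq, natDegree_prod_of_monic _ _ fun i _ => monic_X_sub_C _]
    simp
  rw [← hq] at g1 g2
  obtain ⟨ε, hε, hεq⟩ : ∃ ε : ℝ, 0 < ε ∧ ∀ i ≤ m, ε ≤ ‖q.coeff i‖ := by
    obtain ⟨l, hl, hmin⟩ := (Finset.range (m + 1)).exists_min_image (fun i => ‖q.coeff i‖)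
      ⟨0, by simp⟩
    refine ⟨‖q.coeff l‖, norm_pos_iff.mpr (g1 l (by
      rw [Finset.mem_range] at hl
      omega)), fun i hi => hmin i (by
      rw [Finset.mem_range]
      omega)⟩
  refine ⟨ε, hε, fun P hP hPd hPn => ?_⟩
  rw [← hq] at hPn
  have hnorm : ∀ i ≤ m, ‖P.coeff i‖ = ‖q.coeff i‖ := by
    intro i hi
    have h1 : ‖P.coeff i - q.coeff i‖ < ‖q.coeff i‖ := (hPn i).trans_le (hεq i hi)
    have e : P.coeff i = q.coeff i + (P.coeff i - q.coeff i) := by ring
    rw [e, IsUltrametricDist.norm_add_eq_max_of_norm_ne_norm h1.ne', max_eq_left h1.le]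
  have hn := fun i hi0 hi => H872.GF.newton_of_roots hr0 hr i hi0 hi
  rw [← hq] at hn
  obtain ⟨r', h1, -, h3⟩ := H872.GF.newt_norm hP hPd (by
    rw [← norm_pos_iff, hnorm 0 (Nat.zero_le _), norm_pos_iff]
    exact g1 0 (Nat.zero_le _)) (fun i hi0 hi => by
      rw [hnorm _ (by omega), hnorm _ (by omega), hnorm _ (by omega)]
      exact hn i hi0 hi)
  have hnr : ∀ i, ‖r' i‖ = ‖r i‖ := by
    intro i
    have h4 := h1 i
    have h5 := g2 i i.2
    have i2 := i.2
    rw [hnorm _ (by omega), hnorm _ (by omega), h5] at h4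
    exact mul_right_cancel₀ (norm_ne_zero_iff.mpr (g1 _ (by omega))) h4
  refine ⟨?_, fun x hx => ?_⟩
  · rw [h3]
    exact Polynomial.Splits.prod fun i _ => Polynomial.Splits.X_sub_C _
  · rw [h3, IsRoot, eval_prod, Finset.prod_eq_zero_iff] at hx
    obtain ⟨i, -, hi⟩ := hx
    rw [eval_sub, eval_X, eval_C, sub_eq_zero] at hi
    exact ⟨i, by rw [hi, hnr]⟩

end newton

section place

variable {k D : Type} [Field k] [NumberField k] [DivisionRing D] [StarRing D] [Algebra k D]
  {a : kˣ} {t : D}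

/-- The elements close to a local solution at a good place. -/
theorem near_place {m M : ℕ} {v : HeightOneSpectrum (𝓞 k)}
    (hL : LocOK k (v.adicCompletion k) m t) (h2 : v.valuation k (2 : k) = 1) {δ0 : kˣ}
    (hd : v.valuation k (δ0 : k) = 1) (W : Fin M → D)
    (hW : ∀ w : D, star w = -w ∧ w * t = -(t * w) → w ∈ Submodule.span k (Set.range W)) :
    ∃ (b : Fin M → v.adicCompletion k) (δ : ℝ), 0 < δ ∧ ∀ c : Fin M → k,
      (∀ i, ‖algebraMap k (v.adicCompletion k) (c i) - b i‖ < δ) →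
      LinearIndependent k (fun i : Fin m => ((∑ j, c j • W j) * (∑ j, c j • W j)) ^ (i : ℕ)) ∧
      ∀ p : k[X], p.Monic → p.natDegree = m →
        aeval ((∑ j, c j • W j) * (∑ j, c j • W j)) p = 0 →
        (p.map (algebraMap k (v.adicCompletion k))).Splits ∧
        ∀ x : v.adicCompletion k, (p.map (algebraMap k (v.adicCompletion k))).IsRoot x →
          ∃ y z : v.adicCompletion k,
            x = y ^ 2 - algebraMap k (v.adicCompletion k) (δ0 : k) * z ^ 2 := by
  classical
  obtain ⟨F, hF⟩ : ∃ F, F = v.adicCompletion k := ⟨_, rfl⟩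
  let _ := nnf v
  have := isUltra v
  obtain ⟨A, _, _, _, g, hg, hloc⟩ := hL
  obtain ⟨π, hπ⟩ := v.valuation_exists_uniformizer k
  have hπ0 : π ≠ 0 := by
    rintro rfl
    rw [map_zero] at hπ
    exact WithZero.exp_ne_zero hπ.symm
  obtain ⟨β, hβ⟩ : ∃ β : v.adicCompletion k, β = (algebraMap k (v.adicCompletion k) π)⁻¹ :=
    ⟨_, rfl⟩
  have hβ1 : 1 < ‖β‖ := by
    rw [hβ, norm_inv, one_lt_inv₀ (norm_pos_iff.mpr ((_root_.map_ne_zero _).mpr hπ0)),
      norm_lt_one_iff, valued_alg, hπ]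
    exact exp_neg_one_lt
  have hβ0 : β ≠ 0 := by
    rw [← norm_pos_iff]
    linarith
  obtain ⟨l, hl⟩ : ∃ l : Fin m → v.adicCompletion k, l = fun i : Fin m => β ^ (i : ℕ) :=
    ⟨_, rfl⟩
  have hl0 : ∀ i, l i ≠ 0 := fun i => by
    rw [hl]
    exact pow_ne_zero _ hβ0
  have hlt : ∀ i j, i < j → ‖l i * l i‖ < ‖l j * l j‖ := by
    intro i j hij
    rw [hl]
    simp only [norm_mul, norm_pow, ← pow_add]
    exact pow_lt_pow_right₀ hβ1 (by
      have : (i : ℕ) < j := hij
      omega)
  have hinj : Function.Injective fun i => l i * l i := by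
    intro i j hij
    rcases lt_trichotomy i j with h | h | h
    · have h1 := hlt i j h
      rw [show l i * l i = l j * l j from hij] at h1
      exact absurd h1 (lt_irrefl _)
    · exact h
    · have h1 := hlt j i h
      rw [show l i * l i = l j * l j from hij] at h1
      exact absurd h1 (lt_irrefl _)
  obtain ⟨X, hX, hli, h0⟩ := hloc l hinj
  obtain ⟨b, rfl⟩ := exists_coord g hg W (fun w hw => hW w hw) hX
  obtain ⟨ε, hε, hnewt⟩ := near_newton (r := fun i => l i * l i)
    (fun i => mul_ne_zero (hl0 i) (hl0 i)) hlt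
  have hqm : (∏ i, (Polynomial.X - C (l i * l i))).Monic :=
    monic_prod_of_monic _ _ fun i _ => monic_X_sub_C _
  have hqd : (∏ i, (Polynomial.X - C (l i * l i))).natDegree = m := by
    rw [natDegree_prod_of_monic _ _ fun i _ => monic_X_sub_C _]
    simp only [natDegree_X_sub_C, Finset.sum_const, Finset.card_univ, Fintype.card_fin,
      smul_eq_mul, mul_one]
  obtain ⟨δ, hδ, hnear⟩ := near_sq (Module.finBasis (v.adicCompletion k) A) g hg W b hli hqm hqd
    h0 hε
  refine ⟨b, δ, hδ, fun c hc => ?_⟩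
  obtain ⟨h1, h3⟩ := hnear c hc
  refine ⟨h1, fun p hp hpd hp0 => ?_⟩
  obtain ⟨h4, h5⟩ := hnewt (p.map (algebraMap k (v.adicCompletion k))) (hp.map _)
    (by rw [natDegree_map, hpd]) (fun i => by
      rw [coeff_map]
      exact h3 p hp hpd hp0 i)
  refine ⟨h4, fun x hx => ?_⟩
  obtain ⟨i, hi⟩ := h5 x hx
  have hx1 : (Valued.v (x / (l i * l i)) : Z0) = 1 := by
    have h6 : ‖x / (l i * l i)‖ = 1 := by
      rw [norm_div, hi, div_self]
      exact norm_ne_zero_iff.mpr (mul_ne_zero (hl0 i) (hl0 i))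
    refine le_antisymm ((norm_le_one_iff v _).mp h6.le) ?_
    rw [← not_lt]
    intro h7
    rw [← norm_lt_one_iff, h6] at h7
    exact lt_irrefl _ h7
  obtain ⟨y, z, hyz⟩ := H896.loc_norm h2 hd hx1
  refine ⟨l i * y, l i * z, ?_⟩
  have h8 : x = (l i * l i) * (x / (l i * l i)) := by
    rw [mul_div_cancel₀ _ (mul_ne_zero (hl0 i) (hl0 i))]
  rw [h8, hyz]
  ring

end place

end Vale.Agent.P011.H248
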