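import Vale.Agent.P011.H248.JLocN
import Vale.Agent.P011.H248.JLocS
import Vale.Agent.P011.H248.JNear
import Vale.Agent.P011.H976.Tow.MinK
import Vale.Agent.P011.Pow.Numb
import Vale.Agent.P011.Two.Cv

/-!
**The good elements**: antisymmetric elements which anticommute with a symmetric square root and
whose square is split, with roots which are norms, at given places.
-/

open Module Polynomial NumberField IsDedekindDomain

set_option linter.unusedSectionVars false

namespace Vale.Agent.P011.H248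

open Vale.Agent.P011.Arith Vale.Agent.P011.Even Vale.Agent.P011.Two Vale.Agent.P011.One
open Vale.Agent.P011.Pow hiding exists_x2 nrd_near exists_numbers
open Vale.Agent.P011.W (HasNrd)

/-- The degree of an element with independent powers. -/
theorem le_natDegree {k D : Type} [Field k] [DivisionRing D] [Algebra k D] [FiniteDimensional k D]
    {z : D} {m : ℕ} (h : LinearIndependent k (fun i : Fin m => z ^ (i : ℕ))) :
    m ≤ (minpoly k z).natDegree := by
  by_contra hcon
  push Not at hcon
  have hz : IsIntegral k z := Algebra.IsIntegral.isIntegral z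
  rw [Fintype.linearIndependent_iff] at h
  have h1 := h (fun i => (minpoly k z).coeff i) (by
    have h2 := minpoly.aeval k z
    rw [aeval_eq_sum_range' hcon, Finset.sum_range] at h2
    exact h2) ⟨(minpoly k z).natDegree, hcon⟩
  have h3 : (minpoly k z).leadingCoeff = 0 := h1
  rw [(minpoly.monic hz).leadingCoeff] at h3
  exact one_ne_zero h3

/-- Simultaneous approximation in the completions. -/
theorem exists_approx {k : Type} [Field k] [NumberField k] {M : ℕ}
    {V : Set (HeightOneSpectrum (𝓞 k))} (hV : V.Finite)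
    (b : ∀ v : HeightOneSpectrum (𝓞 k), Fin M → v.adicCompletion k)
    (δ : HeightOneSpectrum (𝓞 k) → ℝ) (hδ : ∀ v, 0 < δ v) :
    ∃ c : Fin M → k, ∀ v ∈ V, ∀ i, ‖algebraMap k (v.adicCompletion k) (c i) - b v i‖ < δ v := by
  classical
  choose y hy using fun (v : HeightOneSpectrum (𝓞 k)) (i : Fin M) =>
    Even.dense v (b v i) (δ v / 2) (half_pos (hδ v))
  have h1 : ∀ i, ∃ f : k, ∀ v ∈ V, plAbv (.inl v : Pl k) (f - y v i) < δ v / 2 := by
    intro i
    obtain ⟨f, hf⟩ := Arith.approx (F := k) (Sum.inl '' V) (hV.image _)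
      (fun p => p.elim (fun v => y v i) fun _ => 0) (fun p => p.elim (fun v => δ v / 2) fun _ => 1)
      (by
        rintro (v | φ)
        · exact half_pos (hδ v)
        · exact one_pos)
    exact ⟨f, fun v hv => hf _ ⟨v, hv, rfl⟩⟩
  choose c hc using h1
  refine ⟨c, fun v hv i => ?_⟩
  have h2 := hc i v hv
  rw [plAbv_norm, map_sub] at h2
  have h3 := hy v i
  rw [norm_sub_rev] at h3
  calc ‖algebraMap k (v.adicCompletion k) (c i) - b v i‖
      = ‖(algebraMap k (v.adicCompletion k) (c i) - algebraMap k (v.adicCompletion k) (y v i)) +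
        (algebraMap k (v.adicCompletion k) (y v i) - b v i)‖ := by
        congr 1
        ring
    _ ≤ _ := norm_add_le _ _
    _ < δ v / 2 + δ v / 2 := add_lt_add h2 h3
    _ = δ v := add_halves _

variable {k K D L K' C : Type} [Field k] [NumberField k] [Field K] [NumberField K] [StarRing K]
    [DivisionRing D] [StarRing D] [Algebra k K] [Algebra k D] [Algebra K D] [IsScalarTower k K D]
    [Field L] [NumberField L] [Algebra k L] [Field K'] [StarRing K'] [NumberField K']
    [Algebra K K'] [DivisionRing C] [StarRing C] [Algebra L K'] [Algebra L C] [Algebra K' C]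
    [IsScalarTower L K' C] {d : kˣ} {s : K} {t : D} {a : kˣ} {T : L} {jC : C →+* D}

/-- The antisymmetric elements which anticommute with `t`. -/
def WS (hS : Setting k K D d s) (t : D) : Submodule k D where
  carrier := {w | star w = -w ∧ w * t = -(t * w)}
  add_mem' := by
    rintro x y ⟨h1, h2⟩ ⟨h3, h4⟩
    refine ⟨?_, ?_⟩
    · rw [star_add, h1, h3, neg_add]
    · rw [add_mul, h2, h4, mul_add, neg_add]
  zero_mem' := by
    refine ⟨?_, ?_⟩
    · rw [star_zero, neg_zero]
    · rw [zero_mul, mul_zero, neg_zero]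
  smul_mem' := by
    rintro c x ⟨h1, h2⟩
    refine ⟨?_, ?_⟩
    · have h3 : star (c • x) = c • star x := hS.sig.map_smul c x
      rw [h3, h1, smul_neg]
    · rw [smul_mul_assoc, h2, mul_smul_comm, smul_neg]

/-- The square root is not central. -/
theorem t_ne (h : IsCent k K D L K' C t a T jC) (c : K) : algebraMap K D c ≠ t := by
  intro hc
  have h1 : algebraMap L C T = algebraMap K' C (algebraMap K K' c) := by
    apply h.inj
    rw [h.jT, h.jK, hc]
  have h2 : algebraMap L K' T = algebraMap K K' c := by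
    apply (algebraMap K' C).injective
    rw [← h1, ← IsScalarTower.algebraMap_apply]
  have h3 : Function.Surjective (algebraMap K K') := by
    intro x
    obtain ⟨u, v, rfl⟩ := h.repK x
    exact ⟨u + v * c, by rw [map_add, map_mul, h2]⟩
  have h4 : finrank K K' = 1 := by
    rw [finrank_eq_one_iff']
    refine ⟨1, one_ne_zero, fun w => ?_⟩
    obtain ⟨c, rfl⟩ := h3 w
    exact ⟨c, by rw [Algebra.smul_def, mul_one]⟩
  rw [h.rkK] at h4
  norm_num at h4

/-- **The good elements exist.** -/
theorem exists_good_j {m : ℕ} (hm : 2 ≤ m) (hS : Setting k K D d s)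
    (hdeg : finrank K D = (2 * m) ^ 2) (hSC : Setting L K' C (inc k L d) (algebraMap K K' s))
    (h : IsCent k K D L K' C t a T jC) (hdC : finrank K' C = m ^ 2) (ht : t ∈ Xa D a) :
    ∃ S : Set (HeightOneSpectrum (𝓞 k)), S.Finite ∧
      ∀ V : Set (HeightOneSpectrum (𝓞 k)), V.Finite → Disjoint V S →
        ∃ (j : D) (γ : C), j ≠ 0 ∧ star j = -j ∧ j * t = -(t * j) ∧ jC γ = j * j ∧
          (minpoly k (j * j)).natDegree = m ∧ (minpoly K' γ).natDegree = m ∧
          ∀ v ∈ V, ((minpoly k (j * j)).map (algebraMap k (v.adicCompletion k))).Splits ∧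
            ∀ x : v.adicCompletion k,
              ((minpoly k (j * j)).map (algebraMap k (v.adicCompletion k))).IsRoot x →
              ∃ p q : v.adicCompletion k,
                x = p ^ 2 - algebraMap k (v.adicCompletion k) ((a * d : kˣ) : k) * q ^ 2 := by
  classical
  have i1 := hS.fin
  have i2 := hS.fin_k
  have i3 := hS.cen
  have hm0 : 0 < m := by omega
  obtain ⟨j0, hj0, hj0s, hj0t⟩ := H359.exists_skew hS ht (t_ne h)
  obtain ⟨S1, hS1, hdet⟩ := H896.dbl_det hS hdeg hj0
  obtain ⟨S, hSd⟩ : ∃ S : Set (HeightOneSpectrum (𝓞 k)), S = S1 ∪ Ram k K D (2 * m) ∪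
      {v | v.valuation k (2 : k) ≠ 1} ∪ {v | v.valuation k (a : k) ≠ 1} ∪
      {v | v.valuation k (d : k) ≠ 1} := ⟨_, rfl⟩
  have hSf : S.Finite := by
    rw [hSd]
    exact (((hS1.union (ram_finite (by omega) hdeg)).union
      (finite_valuation_ne_one _ two_ne_zero)).union
      (finite_valuation_ne_one _ a.ne_zero)).union (finite_valuation_ne_one _ d.ne_zero)
  -- the local solutions
  have hloc : ∀ v ∉ S, LocOK k (v.adicCompletion k) m t := by
    intro v hv
    rw [hSd] at hv
    simp only [Set.mem_union, Set.mem_ofPred_eq, not_or, not_not] at hv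
    obtain ⟨⟨⟨⟨h1, h2⟩, h3⟩, h4⟩, h5⟩ := hv
    by_cases h6 : d ∈ LS (v.valuation k)
    · exact locOK_split hS hm0 hdeg ht h6 h2 hj0 hj0t
    · exact locOK_ns hS hm0 hdeg ht h6 h3 h4 h5 hj0 hj0s hj0t (hdet v h1)
  -- a basis
  let bW := Module.finBasis k (WS hS t)
  obtain ⟨W, hWd⟩ : ∃ W : Fin (finrank k (WS hS t)) → D, W = fun i => (bW i : D) := ⟨_, rfl⟩
  have hW : ∀ w : D, star w = -w ∧ w * t = -(t * w) →
      w ∈ Submodule.span k (Set.range W) := by
    intro w hw
    have h1 := bW.sum_repr (⟨w, hw⟩ : WS hS t)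
    have h2 := congrArg Subtype.val h1
    rw [AddSubmonoidClass.coe_finsetSum] at h2
    have h3 : w = ∑ i, ((bW.repr ⟨w, hw⟩ i • bW i : WS hS t) : D) := h2.symm
    rw [h3]
    refine Submodule.sum_mem _ fun i _ => ?_
    refine Submodule.smul_mem _ _ (Submodule.subset_span ⟨i, ?_⟩)
    rw [hWd]
  have hmem : ∀ c : Fin (finrank k (WS hS t)) → k, ∑ j, c j • W j ∈ WS hS t := by
    intro c
    refine Submodule.sum_mem _ fun i _ => Submodule.smul_mem _ _ ?_
    rw [hWd]
    exact (bW i).2
  have key : ∀ v : HeightOneSpectrum (𝓞 k),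
      ∃ (b : Fin (finrank k (WS hS t)) → v.adicCompletion k) (δ : ℝ), 0 < δ ∧
      (v ∉ S → ∀ c : Fin (finrank k (WS hS t)) → k,
      (∀ i, ‖algebraMap k (v.adicCompletion k) (c i) - b i‖ < δ) →
      LinearIndependent k (fun i : Fin m => ((∑ j, c j • W j) * (∑ j, c j • W j)) ^ (i : ℕ)) ∧
      ∀ p : k[X], p.Monic → p.natDegree = m →
        aeval ((∑ j, c j • W j) * (∑ j, c j • W j)) p = 0 →
        (p.map (algebraMap k (v.adicCompletion k))).Splits ∧
        ∀ x : v.adicCompletion k, (p.map (algebraMap k (v.adicCompletion k))).IsRoot x →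
          ∃ y z : v.adicCompletion k,
            x = y ^ 2 - algebraMap k (v.adicCompletion k) ((a * d : kˣ) : k) * z ^ 2) := by
    intro v
    by_cases hv : v ∈ S
    · exact ⟨0, 1, one_pos, fun h => absurd hv h⟩
    · have hv' := hv
      rw [hSd] at hv'
      simp only [Set.mem_union, Set.mem_ofPred_eq, not_or, not_not] at hv'
      obtain ⟨⟨⟨-, h3⟩, h4⟩, h5⟩ := hv'
      obtain ⟨b, δ, h6, h7⟩ := near_place (hloc v hv) h3 (δ0 := a * d)
        (by rw [Units.val_mul, map_mul, h4, h5, one_mul]) W hW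
      exact ⟨b, δ, h6, fun _ => h7⟩
  choose b δ hδ hbδ using key
  refine ⟨S, hSf, fun V hV hVS => ?_⟩
  obtain ⟨v0, hv0⟩ := exists_out (hSf.union hV)
  rw [Set.mem_union, not_or] at hv0
  obtain ⟨c, hc⟩ := exists_approx (V := insert v0 V) (hV.insert v0) b δ hδ
  obtain ⟨j, hjd⟩ : ∃ j, j = ∑ i, c i • W i := ⟨_, rfl⟩
  obtain ⟨hjs, hjt⟩ : star j = -j ∧ j * t = -(t * j) := by
    rw [hjd]
    exact hmem c
  have hli := (hbδ v0 hv0.1 c (hc v0 (Set.mem_insert _ _))).1
  rw [← hjd] at hli
  have hj0' : j ≠ 0 := by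
    rintro rfl
    have h1 := hli.ne_zero ⟨1, by omega⟩
    apply h1
    simp
  obtain ⟨γ, hγ⟩ := H976.Tow.exists_gamma h hjt
  have hint : IsIntegral k (j * j) := Algebra.IsIntegral.isIntegral _
  have hdm : (minpoly k (j * j)).natDegree = m :=
    le_antisymm (H976.Tow.natDegree_jj_le hS hSC h ht hm0 hdC hj0' hjs hjt) (le_natDegree hli)
  refine ⟨j, γ, hj0', hjs, hjt, hγ, hdm, ?_, fun v hv => ?_⟩
  · rw [H976.Tow.natDegree_gamma hS hSC h ht hj0' hjs hjt hγ, hdm]
  · have hvS : v ∉ S := fun h1 => Set.disjoint_left.mp hVS hv h1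
    have h1 := (hbδ v hvS c (hc v (Set.mem_insert_of_mem _ hv))).2
    rw [← hjd] at h1
    exact h1 _ (minpoly.monic hint) hdm (minpoly.aeval k (j * j))

end Vale.Agent.P011.H248
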