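import Mathlib

/-!
Linear algebra for elements which anticommute with a square root of a scalar.
-/

open Module Matrix Polynomial

namespace Vale.Agent.P011.H248

section eig

variable {E V : Type} [Field E] [AddCommGroup V] [Module E V] [FiniteDimensional E V]

/-- The basis of eigenvectors of a square root of a square. -/
theorem exists_eig {m : ℕ} (hV : finrank E V = 2 * m) (h2 : (2 : E) ≠ 0) (T X : V →ₗ[E] V)
    {r : E} (hr : r ≠ 0) (hT : ∀ x, T (T x) = (r * r) • x) (hX : Function.Injective X)
    (hXT : ∀ x, X (T x) = -T (X x)) :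
    ∃ b : Basis (Fin m ⊕ Fin m) E V, (∀ i, T (b (.inl i)) = r • b (.inl i)) ∧
      ∀ i, T (b (.inr i)) = -(r • b (.inr i)) := by
  let P : Submodule E V := LinearMap.ker (T - r • LinearMap.id)
  let M : Submodule E V := LinearMap.ker (T + r • LinearMap.id)
  have hP : ∀ x, x ∈ P ↔ T x = r • x := by
    intro x
    rw [LinearMap.mem_ker, LinearMap.sub_apply, LinearMap.smul_apply, LinearMap.id_apply,
      sub_eq_zero]
  have hM : ∀ x, x ∈ M ↔ T x = -(r • x) := by
    intro x
    rw [LinearMap.mem_ker, LinearMap.add_apply, LinearMap.smul_apply, LinearMap.id_apply,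
      add_eq_zero_iff_eq_neg]
  have hc : IsCompl P M := by
    refine ⟨?_, ?_⟩
    · rw [Submodule.disjoint_def]
      intro x h1 h3
      rw [hP] at h1
      rw [hM, h1] at h3
      have h4 : (2 * r) • x = 0 := by
        rw [mul_smul, two_smul]
        nth_rewrite 1 [h3]
        exact neg_add_cancel _
      exact (smul_eq_zero.mp h4).resolve_left (mul_ne_zero h2 hr)
    · rw [codisjoint_iff, eq_top_iff]
      intro x _
      have h1 : T x + r • x ∈ P := by
        rw [hP, map_add, hT, map_smul, smul_add, smul_smul, add_comm]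
      have h3 : r • x - T x ∈ M := by
        rw [hM, map_sub, hT, map_smul, smul_sub, smul_smul, neg_sub]
      have h4 : x = (2 * r)⁻¹ • (T x + r • x) + (2 * r)⁻¹ • (r • x - T x) := by
        rw [← smul_add]
        have : T x + r • x + (r • x - T x) = (2 * r) • x := by
          rw [mul_smul, two_smul]; abel
        rw [this, smul_smul, inv_mul_cancel₀ (mul_ne_zero h2 hr), one_smul]
      rw [h4]
      exact Submodule.add_mem_sup (P.smul_mem _ h1) (M.smul_mem _ h3)
  have hle : ∀ (A B : Submodule E V), (∀ x ∈ A, X x ∈ B) → finrank E A ≤ finrank E B := by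
    intro A B hAB
    exact LinearMap.finrank_le_finrank_of_injective (f := X.restrict hAB) (by
      intro x y hxy
      apply Subtype.ext
      exact hX (congrArg Subtype.val hxy))
  have h1 := hle P M (fun x hx => by
    rw [hP] at hx
    rw [hM, ← map_smul, ← hx, hXT, neg_neg])
  have h3 := hle M P (fun x hx => by
    rw [hM] at hx
    have h5 := hXT x
    rw [hx, map_neg, neg_inj, map_smul] at h5
    rw [hP, h5])
  have h4 := Submodule.finrank_add_eq_of_isCompl hc
  rw [hV] at h4
  have hPm : finrank E P = m := by omega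
  have hMm : finrank E M = m := by omega
  let bP := Module.finBasisOfFinrankEq E P hPm
  let bM := Module.finBasisOfFinrankEq E M hMm
  refine ⟨(bP.prod bM).map (Submodule.prodEquivOfIsCompl P M hc), fun i => ?_, fun i => ?_⟩
  · have e : ((bP.prod bM).map (Submodule.prodEquivOfIsCompl P M hc)) (.inl i) = (bP i : V) := by
      simp
    rw [e]
    exact (hP _).mp (bP i).2
  · have e : ((bP.prod bM).map (Submodule.prodEquivOfIsCompl P M hc)) (.inr i) = (bM i : V) := by
      simp
    rw [e]
    exact (hM _).mp (bM i).2

end eig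

section mat

variable {E : Type} [Field E]

/-- The change of basis matrices of a basis of columns. -/
theorem exists_chg {n : ℕ} {ι : Type} [Fintype ι] [DecidableEq ι] (b : Basis ι E (Fin n → E)) :
    ∃ (P : Matrix (Fin n) ι E) (P' : Matrix ι (Fin n) E), P * P' = 1 ∧ P' * P = 1 ∧
      ∀ (T : Matrix (Fin n) (Fin n) E) (S : Matrix ι ι E),
        (∀ i, T *ᵥ b i = ∑ l, S l i • b l) → T * P = P * S := by
  refine ⟨(Pi.basisFun E (Fin n)).toMatrix b, b.toMatrix (Pi.basisFun E (Fin n)),
    Basis.toMatrix_mul_toMatrix_flip _ _, Basis.toMatrix_mul_toMatrix_flip _ _, ?_⟩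
  intro T S h
  ext a i
  have h1 := congrFun (h i) a
  rw [Matrix.mul_apply, Matrix.mul_apply]
  simp only [Basis.toMatrix_apply, Pi.basisFun_repr]
  rw [Finset.sum_apply] at h1
  simp only [Pi.smul_apply, smul_eq_mul] at h1
  rw [Matrix.mulVec, dotProduct] at h1
  rw [h1]
  exact Finset.sum_congr rfl fun l _ => mul_comm _ _

/-- The matrix form of the eigenbasis. -/
theorem exists_eig_mat {m n : ℕ} (hn : n = 2 * m) (h2 : (2 : E) ≠ 0)
    (T X : Matrix (Fin n) (Fin n) E) {r : E} (hr : r ≠ 0) (hT : T * T = (r * r) • 1)
    (hX : IsUnit X) (hXT : X * T = -(T * X)) :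
    ∃ (P : Matrix (Fin n) (Fin m ⊕ Fin m) E) (P' : Matrix (Fin m ⊕ Fin m) (Fin n) E),
      P * P' = 1 ∧ P' * P = 1 ∧
      T * P = P * Matrix.fromBlocks (r • 1) 0 0 (-(r • 1)) := by
  obtain ⟨b, hb1, hb2⟩ := exists_eig (V := Fin n → E) (m := m)
    (by rw [Module.finrank_fin_fun, hn]) h2 T.mulVecLin X.mulVecLin hr
    (fun x => by
      rw [Matrix.mulVecLin_apply, Matrix.mulVecLin_apply, Matrix.mulVec_mulVec, hT,
        Matrix.smul_mulVec, Matrix.one_mulVec])
    (Matrix.mulVec_injective_iff_isUnit.mpr hX)
    (fun x => by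
      rw [Matrix.mulVecLin_apply, Matrix.mulVecLin_apply, Matrix.mulVecLin_apply,
        Matrix.mulVecLin_apply, Matrix.mulVec_mulVec, hXT, Matrix.neg_mulVec,
        Matrix.mulVec_mulVec])
  obtain ⟨P, P', h1, h3, h4⟩ := exists_chg b
  refine ⟨P, P', h1, h3, h4 T _ ?_⟩
  rintro (i | i)
  · have h5 := hb1 i
    rw [Matrix.mulVecLin_apply] at h5
    rw [h5, Fintype.sum_sum_type]
    simp [Matrix.fromBlocks_apply₁₁, Matrix.fromBlocks_apply₂₁, Matrix.one_apply]
  · have h5 := hb2 i
    rw [Matrix.mulVecLin_apply] at h5
    rw [h5, Fintype.sum_sum_type]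
    simp [Matrix.fromBlocks_apply₁₂, Matrix.fromBlocks_apply₂₂, Matrix.one_apply]

end mat

section ind

/-- Independence of the powers and the minimal polynomial, from eigenvectors. -/
theorem of_eig {F E : Type} [Field F] [Field E] [Algebra F E] {m n : ℕ}
    {Z : Matrix (Fin n) (Fin n) E} {P : Matrix (Fin n) (Fin m ⊕ Fin m) E}
    {P' : Matrix (Fin m ⊕ Fin m) (Fin n) E} (h1 : P * P' = 1) (h3 : P' * P = 1)
    {e : Fin m → F} (he : Function.Injective e)
    (hZ : Z * P = P * Matrix.diagonal (Sum.elim (fun i => algebraMap F E (e i))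
      fun i => algebraMap F E (e i))) :
    LinearIndependent F (fun i : Fin m => Z ^ (i : ℕ)) ∧ aeval Z (∏ i, (X - C (e i))) = 0 := by
  classical
  have key : ∀ p : F[X], aeval Z p * P = P * Matrix.diagonal (Sum.elim
      (fun i => algebraMap F E (p.eval (e i))) fun i => algebraMap F E (p.eval (e i))) := by
    intro p
    induction p using Polynomial.induction_on' with
    | add p q hp hq =>
      rw [map_add, Matrix.add_mul, hp, hq, ← Matrix.mul_add, Matrix.diagonal_add]
      congr 2
      funext i
      rcases i with i | i <;> simp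
    | monomial l a =>
      have h4 : Z ^ l * P = P * (Matrix.diagonal (Sum.elim (fun i => algebraMap F E (e i))
          fun i => algebraMap F E (e i))) ^ l := by
        induction l with
        | zero => simp
        | succ l ih => rw [pow_succ, Matrix.mul_assoc, hZ, ← Matrix.mul_assoc, ih,
            Matrix.mul_assoc, ← pow_succ]
      rw [aeval_monomial, Matrix.mul_assoc, h4, Matrix.diagonal_pow,
        Algebra.algebraMap_eq_smul_one, Matrix.smul_mul, Matrix.one_mul,
        ← Matrix.mul_smul, ← Matrix.diagonal_smul]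
      congr 2
      funext i
      rcases i with i | i <;> simp [Algebra.smul_def]
  have hz : ∀ p : F[X], aeval Z p = 0 ↔ ∀ i, p.eval (e i) = 0 := by
    intro p
    constructor
    · intro h i
      have h5 := key p
      rw [h, Matrix.zero_mul] at h5
      have h6 := congrArg (fun W => P' * W) h5
      simp only [← Matrix.mul_assoc, h3, Matrix.one_mul, Matrix.mul_zero] at h6
      have h7 := congrFun (congrFun h6 (.inl i)) (.inl i)
      rw [Matrix.diagonal_apply_eq] at h7
      exact (map_eq_zero (algebraMap F E)).mp h7.symm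
    · intro h
      have h5 := key p
      have h6 : (Matrix.diagonal (Sum.elim (fun i => algebraMap F E (p.eval (e i)))
          fun i => algebraMap F E (p.eval (e i))) : Matrix (Fin m ⊕ Fin m) _ E) = 0 := by
        rw [Matrix.diagonal_eq_zero]
        funext i
        rcases i with i | i <;> simp [h]
      rw [h6, Matrix.mul_zero] at h5
      have h7 := congrArg (fun W => W * P') h5
      simpa only [Matrix.mul_assoc, h1, Matrix.mul_one, Matrix.zero_mul] using h7
  constructor
  · rw [Fintype.linearIndependent_iff]
    intro a ha i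
    let p : F[X] := ∑ i : Fin m, C (a i) * X ^ (i : ℕ)
    have hp : aeval Z p = 0 := by
      rw [← ha, map_sum]
      refine Finset.sum_congr rfl fun i _ => ?_
      rw [map_mul, aeval_C, map_pow, aeval_X, Algebra.smul_def]
    have h5 := (hz p).mp hp
    have hp0 : p = 0 := by
      rcases Nat.eq_zero_or_pos m with h0 | h0
      · subst h0
        exact i.elim0
      refine Polynomial.eq_zero_of_natDegree_lt_card_of_eval_eq_zero p he h5 ?_
      rw [Fintype.card_fin]
      refine (Polynomial.natDegree_sum_le_of_forall_le (n := m - 1) _ _ fun j _ => ?_).trans_lt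
        (by omega)
      refine (natDegree_C_mul_X_pow_le _ _).trans ?_
      have := j.2
      omega
    have h6 : p.coeff i = a i := by
      simp only [p, finsetSum_coeff, coeff_C_mul_X_pow]
      rw [Finset.sum_eq_single i]
      · simp
      · intro j _ hj
        rw [if_neg]
        intro h
        exact hj (Fin.ext h).symm
      · intro h
        exact absurd (Finset.mem_univ _) h
    rw [← h6, hp0, coeff_zero]
  · rw [hz]
    intro i
    rw [eval_prod]
    exact Finset.prod_eq_zero (Finset.mem_univ i) (by simp)

end ind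

end Vale.Agent.P011.H248
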