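import Vale.Agent.P011.H248.JNS
import Vale.Agent.P011.H248.JSpan
import Vale.Agent.P011.Even.LocModel
import Vale.Agent.P011.Arith.Hasse3

/-!
Antisymmetric elements with split square at the places which do not split.
-/

open Module Polynomial TensorProduct NumberField IsDedekindDomain Matrix

set_option linter.unusedSectionVars false

namespace Vale.Agent.P011.H248

open Vale.Agent.P011.Arith Vale.Agent.P011.Even Vale.Agent.P011.Two Vale.Agent.P011.One

variable {k K D : Type} [Field k] [NumberField k] [Field K] [StarRing K]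
  [DivisionRing D] [StarRing D] [Algebra k K] [Algebra k D] [Algebra K D] [IsScalarTower k K D]
  {d : kˣ} {s : K} {a : kˣ} {t : D}

/-- The norm condition on the determinant at a place. -/
def DetAt (k D : Type) [Field k] [NumberField k] [DivisionRing D] [Algebra k D] (n : ℕ) (j : D)
    (v : HeightOneSpectrum (𝓞 k)) : Prop :=
  ∀ (E : Type) [Field E] [Algebra (v.adicCompletion k) E] [StarRing E],
    (∀ x : E, star x = x ↔ x ∈ Set.range (algebraMap (v.adicCompletion k) E)) →
    finrank (v.adicCompletion k) E = 2 →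
    ∀ ρ : v.adicCompletion k ⊗[k] D ≃ₐ[v.adicCompletion k] Matrix (Fin n) (Fin n) E,
    ∀ c : v.adicCompletion k, (algebraMap (v.adicCompletion k) E c = (ρ (1 ⊗ₜ j)).det ∨
      algebraMap (v.adicCompletion k) E c = -(ρ (1 ⊗ₜ j)).det) →
      ∃ z : E, z * star z = algebraMap (v.adicCompletion k) E c

theorem locOK_ns (hS : Setting k K D d s) {m : ℕ} (hm : 0 < m) (hdeg : finrank K D = (2 * m) ^ 2)
    (ht : t ∈ Xa D a) {v : HeightOneSpectrum (𝓞 k)} (hv : d ∉ LS (v.valuation k))
    (h2 : v.valuation k (2 : k) = 1) (hva : v.valuation k (a : k) = 1)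
    (hvd : v.valuation k (d : k) = 1) {j : D} (hj0 : j ≠ 0) (hj : star j = -j)
    (hjt : j * t = -(t * j)) (hdet : DetAt k D (2 * m) j v) :
    LocOK k (v.adicCompletion k) m t := by
  classical
  have i1 := hS.fin
  have i2 := hS.fin_k
  let F := v.adicCompletion k
  obtain ⟨L, _, _, _, ρ, G, hfix, hL2, hGu, hGs, hG⟩ := exists_local_model hS hdeg v hv
  have hcL : CharZero L := charZero_of_injective_algebraMap (algebraMap F L).injective
  have hne : Nonempty (Fin (2 * m)) := ⟨⟨0, by omega⟩⟩
  obtain ⟨dL, hQ⟩ := exists_quadL hfix hL2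
  have hσ : ∀ x : D, hS.sig.baseChange F ((1 : F) ⊗ₜ[k] x) = 1 ⊗ₜ star x := fun x => rfl
  have hGd : IsUnit G.det := (Matrix.isUnit_iff_isUnit_det G).mp hGu
  -- the central square root of `d`
  obtain ⟨c, hc⟩ : ∃ c : L, Matrix.scalar (Fin (2 * m)) c =
      ρ ((1 : F) ⊗ₜ[k] algebraMap K D s) := by
    have h1 : ρ ((1 : F) ⊗ₜ[k] algebraMap K D s) ∈
        Set.center (Matrix (Fin (2 * m)) (Fin (2 * m)) L) := by
      rw [Semigroup.mem_center_iff]
      intro M
      obtain ⟨y, rfl⟩ := ρ.surjective M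
      rw [← map_mul, ← map_mul]
      congr 1
      induction y using TensorProduct.induction_on with
      | zero => rw [zero_mul, mul_zero]
      | tmul q x => rw [Algebra.TensorProduct.tmul_mul_tmul, Algebra.TensorProduct.tmul_mul_tmul,
          one_mul, mul_one, Algebra.commutes]
      | add x y hx hy => rw [add_mul, mul_add, hx, hy]
    rw [Matrix.center_eq_range] at h1
    exact h1
  have hcs : star c = -c := by
    have h1 := hG ((1 : F) ⊗ₜ[k] algebraMap K D s)
    rw [hσ, hS.star_alg, hS.star_s, map_neg, TensorProduct.tmul_neg, map_neg, ← hc,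
      Matrix.scalar_apply, Matrix.diagonal_conjTranspose] at h1
    obtain ⟨i⟩ := hne
    have h3 : (Matrix.diagonal fun _ => c + star c) * G = 0 := by
      have e : (Matrix.diagonal fun _ => c + star c : Matrix (Fin (2 * m)) (Fin (2 * m)) L) =
          Matrix.diagonal (fun _ => c) + Matrix.diagonal (fun _ => star c) := by
        rw [Matrix.diagonal_add]
      have e2 : (Matrix.diagonal fun _ => c : Matrix (Fin (2 * m)) (Fin (2 * m)) L) * G =
          G * Matrix.diagonal fun _ => c := by
        have := Matrix.scalar_commute c (fun r => mul_comm _ _) G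
        exact this
      rw [e, add_mul, e2]
      have h4 : G * -(Matrix.diagonal fun _ => c) = (Matrix.diagonal fun _ => star c) * G := h1
      rw [← h4, mul_neg, add_neg_cancel]
    have h5 : (Matrix.diagonal fun _ => c + star c :
        Matrix (Fin (2 * m)) (Fin (2 * m)) L) = 0 := by
      have h6 := congrArg (fun M => M * G⁻¹) h3
      simp only [zero_mul] at h6
      rwa [Matrix.mul_assoc, Matrix.mul_nonsing_inv _ hGd, Matrix.mul_one] at h6
    have h7 := congrFun (congrFun h5 i) i
    rw [Matrix.diagonal_apply_eq, Matrix.zero_apply] at h7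
    exact (neg_eq_of_add_eq_zero_right h7).symm
  have hcc : c * c = algebraMap F L (algebraMap k F (d : k)) := by
    have h1 : ρ ((1 : F) ⊗ₜ[k] algebraMap K D s) * ρ ((1 : F) ⊗ₜ[k] algebraMap K D s) =
        algebraMap F _ (algebraMap k F (d : k)) := by
      rw [← map_mul, Algebra.TensorProduct.tmul_mul_tmul, mul_one, ← map_mul, ← pow_two, hS.sq,
        ← IsScalarTower.algebraMap_apply, ← AlgEquiv.commutes ρ, Algebra.TensorProduct.algebraMap_apply]
      congr 1
      rw [Algebra.algebraMap_eq_smul_one (A := D), ← TensorProduct.smul_tmul, Algebra.smul_def,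
        mul_one]
      rfl
    rw [← hc, ← map_mul] at h1
    obtain ⟨i⟩ := hne
    have h3 := congrFun (congrFun h1 i) i
    rw [Matrix.scalar_apply, Matrix.diagonal_apply_eq, Matrix.algebraMap_matrix_apply,
      if_pos rfl] at h3
    exact h3
  have hc0 : c ≠ 0 := by
    rintro rfl
    rw [mul_zero] at hcc
    exact (_root_.map_ne_zero (algebraMap F L)).mpr ((_root_.map_ne_zero (algebraMap k F)).mpr
      d.ne_zero) hcc.symm
  obtain ⟨T, hTd⟩ : ∃ T, T = ρ ((1 : F) ⊗ₜ[k] t) := ⟨_, rfl⟩
  obtain ⟨X0, hXd⟩ : ∃ X0, X0 = ρ ((1 : F) ⊗ₜ[k] j) := ⟨_, rfl⟩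
  have hGT : G * T = Tᴴ * G := by
    have h1 := hG ((1 : F) ⊗ₜ[k] t)
    rw [hσ, ht.1] at h1
    rw [hTd]
    exact h1
  have hGX : G * X0 = -(X0ᴴ * G) := by
    have h1 := hG ((1 : F) ⊗ₜ[k] j)
    rw [hσ, hj, TensorProduct.tmul_neg, map_neg, mul_neg] at h1
    rw [hXd, ← h1, neg_neg]
  have hXT : X0 * T = -(T * X0) := by
    rw [hTd, hXd, ← map_mul, ← map_mul, Algebra.TensorProduct.tmul_mul_tmul,
      Algebra.TensorProduct.tmul_mul_tmul, hjt, TensorProduct.tmul_neg, map_neg]
  have hX0 : IsUnit X0 := by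
    rw [hXd]
    refine IsUnit.map ρ ⟨⟨1 ⊗ₜ j, 1 ⊗ₜ j⁻¹, ?_, ?_⟩, rfl⟩
    · rw [Algebra.TensorProduct.tmul_mul_tmul, one_mul, mul_inv_cancel₀ hj0,
        ← Algebra.TensorProduct.one_def]
    · rw [Algebra.TensorProduct.tmul_mul_tmul, one_mul, inv_mul_cancel₀ hj0,
        ← Algebra.TensorProduct.one_def]
  have hTT : T * T = (algebraMap F L (algebraMap k F (a : k))) • 1 := by
    rw [hTd, ← map_mul, Algebra.TensorProduct.tmul_mul_tmul, mul_one, ht.2]
    have e : ((1 : F) ⊗ₜ[k] algebraMap k D (a : k)) =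
        algebraMap F (F ⊗[k] D) (algebraMap k F (a : k)) := by
      rw [Algebra.TensorProduct.algebraMap_apply,
        Algebra.algebraMap_eq_smul_one (A := D), ← TensorProduct.smul_tmul, Algebra.smul_def,
        mul_one]
      rfl
    rw [e, AlgEquiv.commutes, Algebra.algebraMap_eq_smul_one]
    exact (algebraMap_smul L (algebraMap k F (a : k) : F)
      (1 : Matrix (Fin (2 * m)) (Fin (2 * m)) L)).symm
  have hnice : Nice m G T := by
    by_cases ha : a ∈ LS (v.valuation k)
    · obtain ⟨q, hq⟩ := (isSquare_iff v a).mpr ha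
      have hr : algebraMap F L (algebraMap k F (a : k)) = algebraMap F L q * algebraMap F L q := by
        rw [← map_mul, ← hq]
      have hU : BinUniv L := binUniv (indexTwo v) hfix (d := iu v d)
        (fun h => hv ((isSquare_iff v d).mp h)) (s := c) (by rw [pow_two]; exact hcc) hcs
      refine nice_real hQ hU rfl hGu hGs hGT hGX hXT hX0
        (r := algebraMap F L q) ?_ (by rw [← hr]; exact hTT) ((hfix _).mpr ⟨q, rfl⟩) ?_
      · intro h0
        rw [h0, mul_zero] at hr
        exact (_root_.map_ne_zero (algebraMap F L)).mpr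
          ((_root_.map_ne_zero (algebraMap k F)).mpr a.ne_zero) hr
      · intro e he
        rw [hXd] at he
        exact hdet L hfix hL2 ρ e he
    · have had : a * d ∈ LS (v.valuation k) := unit_sq_mul v h2 a d hva hvd ha hv
      obtain ⟨q, hq⟩ := (isSquare_iff v (a * d)).mpr had
      have hr : algebraMap F L (algebraMap k F (a : k)) =
          algebraMap F L q * c⁻¹ * (algebraMap F L q * c⁻¹) := by
        have h5 : algebraMap F L (algebraMap k F (a : k)) * (c * c) =
            algebraMap F L q * algebraMap F L q := by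
          rw [hcc, ← map_mul, ← map_mul, ← map_mul, ← Units.val_mul, hq]
        field_simp
        linear_combination h5
      refine nice_imag hQ rfl hGu hGs hGT hGX hXT hX0 (r := algebraMap F L q * c⁻¹) ?_
        (by rw [← hr]; exact hTT) ?_
      · intro h0
        rw [h0, mul_zero] at hr
        exact (_root_.map_ne_zero (algebraMap F L)).mpr
          ((_root_.map_ne_zero (algebraMap k F)).mpr a.ne_zero) hr
      · rw [star_mul', star_inv₀, hcs, (hfix (algebraMap F L q)).mpr ⟨q, rfl⟩, inv_neg, mul_neg]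
  refine ⟨F ⊗[k] D, inferInstance, inferInstance, inferInstance,
    (Algebra.TensorProduct.includeRight : D →ₐ[k] F ⊗[k] D).toRingHom, fun c x => ?_, ?_⟩
  · change (1 : F) ⊗ₜ[k] (c • x) = algebraMap k F c • ((1 : F) ⊗ₜ[k] x)
    rw [← TensorProduct.smul_tmul, TensorProduct.smul_tmul', Algebra.smul_def, smul_eq_mul]
  intro l hl
  obtain ⟨X, hX1, hX2, hX3, hX4⟩ := hnice.exists_x (F := F)
    (fun c => (hfix _).mpr ⟨c, rfl⟩) l hl
  refine ⟨ρ.symm X, mem_span_tensor hS ht ?_ ?_, ?_, ?_⟩
  · apply ρ.injective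
    have h1 := hG (ρ.symm X)
    rw [AlgEquiv.apply_symm_apply] at h1
    have h3 : G * ρ (hS.sig.baseChange F (ρ.symm X)) = G * -X := by
      rw [h1, mul_neg, hX1, neg_neg]
    have h5 := congrArg (fun M => G⁻¹ * M) h3
    simp only [← Matrix.mul_assoc, Matrix.nonsing_inv_mul _ hGd, Matrix.one_mul] at h5
    rw [map_neg, AlgEquiv.apply_symm_apply]
    exact h5
  · apply ρ.injective
    rw [map_mul, map_neg, map_mul, AlgEquiv.apply_symm_apply, ← hTd]
    exact hX2
  · have h1 := hX3.map' ρ.symm.toLinearMap (LinearMap.ker_eq_bot.mpr ρ.symm.injective)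
    have h3 : (fun i : Fin m => (ρ.symm X * ρ.symm X) ^ (i : ℕ)) =
        (ρ.symm.toLinearMap ∘ fun i : Fin m => (X * X) ^ (i : ℕ)) := by
      funext i
      change _ = ρ.symm ((X * X) ^ (i : ℕ))
      rw [map_pow, map_mul]
    exact h3 ▸ h1
  · have h1 := Polynomial.aeval_algHom_apply (ρ.symm : Matrix (Fin (2 * m)) (Fin (2 * m)) L →ₐ[F]
      F ⊗[k] D) (X * X) (∏ i, (Polynomial.X - C (l i * l i)))
    rw [hX4, map_zero] at h1
    rw [← map_mul]
    exact h1

end Vale.Agent.P011.H248
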