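import Vale.Agent.P011.H248.JLin
import Vale.Agent.P011.Even.DiagPair
import Vale.Agent.P011.Even.HermClass

/-!
Hermitian spaces with an antisymmetric operator which anticommutes with a square root of a scalar.
-/

open Module Matrix Polynomial
open Vale.Agent.P011.T2 Vale.Agent.P011.Even

namespace Vale.Agent.P011.H248

section

variable {E : Type} [Field E] [StarRing E] {m n : ℕ}

/-- the model of the square root -/
def TB (m : ℕ) (r : E) : Matrix (Fin m ⊕ Fin m) (Fin m ⊕ Fin m) E :=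
  Matrix.fromBlocks (r • 1) 0 0 (-(r • 1))

/-- the model of the antisymmetric element -/
def XB (x : Fin m → E) : Matrix (Fin m ⊕ Fin m) (Fin m ⊕ Fin m) E :=
  Matrix.fromBlocks 0 (Matrix.diagonal x) (Matrix.diagonal x) 0

omit [StarRing E] in
theorem XB_sq (x : Fin m → E) : XB x * XB x =
    Matrix.diagonal (Sum.elim (fun i => x i * x i) fun i => x i * x i) := by
  rw [XB, Matrix.fromBlocks_multiply, Matrix.diagonal_mul_diagonal]
  simp [Matrix.fromBlocks_diagonal]

omit [StarRing E] in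
theorem XB_TB (x : Fin m → E) (r : E) : XB x * TB m r = -(TB m r * XB x) := by
  rw [XB, TB, Matrix.fromBlocks_multiply, Matrix.fromBlocks_multiply, Matrix.fromBlocks_neg]
  simp

omit [StarRing E] in
theorem TB_comm (r : E) (A D : Matrix (Fin m) (Fin m) E) :
    TB m r * Matrix.fromBlocks A 0 0 D = Matrix.fromBlocks A 0 0 D * TB m r := by
  rw [TB, Matrix.fromBlocks_multiply, Matrix.fromBlocks_multiply]
  simp

theorem XB_conj {x : Fin m → E} (hx : ∀ i, star (x i) = x i) : (XB x)ᴴ = XB x := by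
  have : star x = x := by
    funext i
    exact hx i
  rw [XB, Matrix.fromBlocks_conjTranspose, Matrix.conjTranspose_zero,
    Matrix.diagonal_conjTranspose, this]

/-- The output: a basis in which the form and the square root have a standard shape. -/
def Nice (m : ℕ) {n : ℕ} (G T : Matrix (Fin n) (Fin n) E) : Prop :=
  ∃ (P : Matrix (Fin n) (Fin m ⊕ Fin m) E) (P' : Matrix (Fin m ⊕ Fin m) (Fin n) E) (r : E),
    P * P' = 1 ∧ P' * P = 1 ∧ T * P = P * TB m r ∧
    ∀ x : Fin m → E, (∀ i, star (x i) = x i) →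
      (Pᴴ * G * P) * XB x = -((XB x)ᴴ * (Pᴴ * G * P))

/-- The antisymmetric elements. -/
theorem Nice.exists_x {G T : Matrix (Fin n) (Fin n) E} (h : Nice m G T) {F : Type} [Field F]
    [Algebra F E] (hF : ∀ c : F, star (algebraMap F E c) = algebraMap F E c) (l : Fin m → F)
    (hl : Function.Injective fun i => l i * l i) :
    ∃ X : Matrix (Fin n) (Fin n) E, G * X = -(Xᴴ * G) ∧ X * T = -(T * X) ∧
      LinearIndependent F (fun i : Fin m => (X * X) ^ (i : ℕ)) ∧
      aeval (X * X) (∏ i, (Polynomial.X - C (l i * l i))) = 0 := by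
  obtain ⟨P, P', r, h1, h3, h4, h5⟩ := h
  let x : Fin m → E := fun i => algebraMap F E (l i)
  have hx : ∀ i, star (x i) = x i := fun i => hF _
  have h6 := h5 x hx
  have hPP : P'ᴴ * Pᴴ = 1 := by rw [← Matrix.conjTranspose_mul, h1, Matrix.conjTranspose_one]
  refine ⟨P * XB x * P', ?_, ?_, ?_⟩
  · calc G * (P * XB x * P') = (P'ᴴ * Pᴴ) * G * (P * XB x * P') := by
          rw [hPP, Matrix.one_mul]
      _ = P'ᴴ * ((Pᴴ * G * P) * XB x) * P' := by simp only [Matrix.mul_assoc]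
      _ = -(P'ᴴ * (XB x)ᴴ * (Pᴴ * G * (P * P'))) := by
          rw [h6]; simp only [Matrix.mul_assoc, Matrix.mul_neg, Matrix.neg_mul]
      _ = -((P * XB x * P')ᴴ * G) := by
          rw [h1, Matrix.mul_one, Matrix.conjTranspose_mul, Matrix.conjTranspose_mul]
          simp only [Matrix.mul_assoc]
  · have h7 : P' * T = TB m r * P' := by
      calc P' * T = P' * (T * P) * P' := by
            rw [Matrix.mul_assoc, Matrix.mul_assoc, h1, Matrix.mul_one]
        _ = TB m r * P' := by rw [h4, ← Matrix.mul_assoc, h3, Matrix.one_mul]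
    rw [Matrix.mul_assoc, h7, ← Matrix.mul_assoc, Matrix.mul_assoc P, XB_TB, Matrix.mul_neg,
      Matrix.neg_mul, ← Matrix.mul_assoc, ← h4]
    simp only [Matrix.mul_assoc]
  · refine of_eig (P := P) (P' := P') h1 h3 hl ?_
    calc P * XB x * P' * (P * XB x * P') * P
        = P * XB x * (P' * P) * XB x * (P' * P) := by simp only [Matrix.mul_assoc]
      _ = P * (XB x * XB x) := by
          rw [h3, Matrix.mul_one, Matrix.mul_one, Matrix.mul_assoc]
      _ = _ := by
          rw [XB_sq]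
          congr 2
          funext i
          rcases i with i | i <;> simp [x]

variable {G T X : Matrix (Fin n) (Fin n) E}

omit [StarRing E] in
theorem blk_anti (h2 : (2 : E) ≠ 0) {r : E} (hr : r ≠ 0)
    {Y : Matrix (Fin m ⊕ Fin m) (Fin m ⊕ Fin m) E} (h : Y * TB m r = -(TB m r * Y)) :
    ∃ B C : Matrix (Fin m) (Fin m) E, Y = Matrix.fromBlocks 0 B C 0 := by
  have e := Matrix.fromBlocks_toBlocks Y
  rw [← e, TB, Matrix.fromBlocks_multiply, Matrix.fromBlocks_multiply, Matrix.fromBlocks_neg,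
    Matrix.fromBlocks_inj] at h
  obtain ⟨h11, -, -, h22⟩ := h
  have hz : ∀ A : Matrix (Fin m) (Fin m) E, r • A = -(r • A) → A = 0 := by
    intro A hA
    have h3 : (2 * r) • A = 0 := by
      rw [mul_smul, two_smul]
      nth_rewrite 1 [hA]
      exact neg_add_cancel _
    exact (smul_eq_zero.mp h3).resolve_left (mul_ne_zero h2 hr)
  have h1 : Y.toBlocks₁₁ = 0 := by
    apply hz
    simpa using h11
  have h4 : Y.toBlocks₂₂ = 0 := by
    apply hz
    have h5 := h22
    simp only [Matrix.mul_neg, Matrix.neg_mul, Matrix.mul_smul, Matrix.mul_one, Matrix.mul_zero,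
      zero_add, Matrix.zero_mul, Matrix.smul_mul, Matrix.one_mul, neg_neg] at h5
    exact h5.symm
  exact ⟨_, _, by rw [← e, h1, h4]⟩

omit [StarRing E] in
theorem blk_sq (B C : Matrix (Fin m) (Fin m) E) :
    Matrix.fromBlocks 0 B C 0 * Matrix.fromBlocks 0 B C 0 =
      Matrix.fromBlocks (B * C) 0 0 (C * B) := by
  rw [Matrix.fromBlocks_multiply]
  simp

/-- the data in the eigenbasis -/
theorem exists_blk (hn : n = 2 * m) (h2 : (2 : E) ≠ 0) (hG : IsUnit G) (hGs : Gᴴ = G)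
    (hGT : G * T = Tᴴ * G) (hGX : G * X = -(Xᴴ * G)) (hXT : X * T = -(T * X)) (hX : IsUnit X)
    {r : E} (hr : r ≠ 0) (hT : T * T = (r * r) • 1) :
    ∃ (P : Matrix (Fin n) (Fin m ⊕ Fin m) E) (P' : Matrix (Fin m ⊕ Fin m) (Fin n) E)
      (H : Matrix (Fin m ⊕ Fin m) (Fin m ⊕ Fin m) E) (B C : Matrix (Fin m) (Fin m) E),
      P * P' = 1 ∧ P' * P = 1 ∧ T * P = P * TB m r ∧ H = Pᴴ * G * P ∧ Hᴴ = H ∧ H.det ≠ 0 ∧
      H * TB m r = (TB m r)ᴴ * H ∧ P' * X * P = Matrix.fromBlocks 0 B C 0 ∧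
      H * Matrix.fromBlocks 0 B C 0 = -((Matrix.fromBlocks 0 B C 0)ᴴ * H) ∧
      (P' * X * P).det = X.det := by
  obtain ⟨P, P', h1, h3, h4⟩ := exists_eig_mat hn h2 T X hr hT hX hXT
  have h4' : T * P = P * TB m r := h4
  have hPP : P'ᴴ * Pᴴ = 1 := by rw [← Matrix.conjTranspose_mul, h1, Matrix.conjTranspose_one]
  have hPP' : Pᴴ * P'ᴴ = 1 := by rw [← Matrix.conjTranspose_mul, h3, Matrix.conjTranspose_one]
  have h7 : P' * T = TB m r * P' := by
    calc P' * T = P' * (T * P) * P' := by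
          rw [Matrix.mul_assoc, Matrix.mul_assoc, h1, Matrix.mul_one]
      _ = TB m r * P' := by rw [h4', ← Matrix.mul_assoc, h3, Matrix.one_mul]
  obtain ⟨B, C, hBC⟩ := blk_anti h2 hr (Y := P' * X * P) (by
    calc P' * X * P * TB m r = P' * (X * T) * P := by
          rw [Matrix.mul_assoc (P' * X), ← h4']; simp only [Matrix.mul_assoc]
      _ = -(P' * T * X * P) := by
          rw [hXT]; simp only [Matrix.mul_neg, Matrix.neg_mul, Matrix.mul_assoc]
      _ = _ := by rw [h7]; simp only [Matrix.mul_assoc])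
  refine ⟨P, P', Pᴴ * G * P, B, C, h1, h3, h4', rfl, ?_, ?_, ?_, hBC, ?_, ?_⟩
  · rw [Matrix.conjTranspose_mul, Matrix.conjTranspose_mul, Matrix.conjTranspose_conjTranspose,
      hGs, Matrix.mul_assoc]
  · have h8 : (Pᴴ * G * P) * (P' * G⁻¹ * P'ᴴ) = 1 := by
      have hGG : G * G⁻¹ = 1 := Matrix.mul_nonsing_inv _ ((Matrix.isUnit_iff_isUnit_det G).mp hG)
      calc (Pᴴ * G * P) * (P' * G⁻¹ * P'ᴴ) = Pᴴ * (G * (P * P') * G⁻¹) * P'ᴴ := by
            simp only [Matrix.mul_assoc]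
        _ = 1 := by rw [h1, Matrix.mul_one, hGG, Matrix.mul_one, hPP']
    intro h0
    have h9 := congrArg Matrix.det h8
    rw [Matrix.det_mul, h0, zero_mul, Matrix.det_one] at h9
    exact zero_ne_one h9
  · calc Pᴴ * G * P * TB m r = Pᴴ * (G * T) * P := by
          rw [Matrix.mul_assoc (Pᴴ * G), ← h4']; simp only [Matrix.mul_assoc]
      _ = (T * P)ᴴ * G * P := by
          rw [hGT, Matrix.conjTranspose_mul]; simp only [Matrix.mul_assoc]
      _ = _ := by rw [h4', Matrix.conjTranspose_mul]; simp only [Matrix.mul_assoc]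
  · rw [← hBC]
    calc Pᴴ * G * P * (P' * X * P) = Pᴴ * (G * ((P * P') * X)) * P := by
          simp only [Matrix.mul_assoc]
      _ = -(Pᴴ * Xᴴ * (P'ᴴ * Pᴴ) * G * P) := by
          rw [h1, Matrix.one_mul, hGX, hPP, Matrix.mul_one]
          simp only [Matrix.mul_neg, Matrix.neg_mul, Matrix.mul_assoc]
      _ = _ := by
          rw [Matrix.conjTranspose_mul, Matrix.conjTranspose_mul]
          simp only [Matrix.mul_assoc]
  · exact Matrix.det_conj_of_mul_eq_one h3 h1

end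

section cases

variable {F E : Type} [Field F] [Field E] [CharZero E] [StarRing E] [Algebra F E] {d : F}
  {m n : ℕ} {G T X : Matrix (Fin n) (Fin n) E}

omit [CharZero E] in
/-- Change of the basis by a block matrix. -/
theorem nice_of {P : Matrix (Fin n) (Fin m ⊕ Fin m) E} {P' : Matrix (Fin m ⊕ Fin m) (Fin n) E}
    {r : E} (h1 : P * P' = 1) (h3 : P' * P = 1) (h4 : T * P = P * TB m r)
    {W1 W2 : Matrix (Fin m) (Fin m) E} (hW1 : W1.det ≠ 0) (hW2 : W2.det ≠ 0)
    {H : Matrix (Fin m ⊕ Fin m) (Fin m ⊕ Fin m) E} (hH : H = Pᴴ * G * P)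
    (h : ∀ x : Fin m → E, (∀ i, star (x i) = x i) →
      ((Matrix.fromBlocks W1 0 0 W2)ᴴ * H * Matrix.fromBlocks W1 0 0 W2) * XB x =
        -((XB x)ᴴ * ((Matrix.fromBlocks W1 0 0 W2)ᴴ * H * Matrix.fromBlocks W1 0 0 W2))) :
    Nice m G T := by
  have hu1 : W1 * W1⁻¹ = 1 := Matrix.mul_nonsing_inv _ (isUnit_iff_ne_zero.mpr hW1)
  have hu1' : W1⁻¹ * W1 = 1 := Matrix.nonsing_inv_mul _ (isUnit_iff_ne_zero.mpr hW1)
  have hu2 : W2 * W2⁻¹ = 1 := Matrix.mul_nonsing_inv _ (isUnit_iff_ne_zero.mpr hW2)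
  have hu2' : W2⁻¹ * W2 = 1 := Matrix.nonsing_inv_mul _ (isUnit_iff_ne_zero.mpr hW2)
  have e1 : Matrix.fromBlocks W1 0 0 W2 * Matrix.fromBlocks W1⁻¹ 0 0 W2⁻¹ = 1 := by
    rw [Matrix.fromBlocks_multiply, hu1, hu2]
    simp
  have e2 : Matrix.fromBlocks W1⁻¹ 0 0 W2⁻¹ * Matrix.fromBlocks W1 0 0 W2 = 1 := by
    rw [Matrix.fromBlocks_multiply, hu1', hu2']
    simp
  refine ⟨P * Matrix.fromBlocks W1 0 0 W2, Matrix.fromBlocks W1⁻¹ 0 0 W2⁻¹ * P', r, ?_, ?_, ?_, ?_⟩
  · calc P * Matrix.fromBlocks W1 0 0 W2 * (Matrix.fromBlocks W1⁻¹ 0 0 W2⁻¹ * P')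
        = P * (Matrix.fromBlocks W1 0 0 W2 * Matrix.fromBlocks W1⁻¹ 0 0 W2⁻¹) * P' := by
          simp only [Matrix.mul_assoc]
      _ = 1 := by rw [e1, Matrix.mul_one, h1]
  · calc Matrix.fromBlocks W1⁻¹ 0 0 W2⁻¹ * P' * (P * Matrix.fromBlocks W1 0 0 W2)
        = Matrix.fromBlocks W1⁻¹ 0 0 W2⁻¹ * (P' * P) * Matrix.fromBlocks W1 0 0 W2 := by
          simp only [Matrix.mul_assoc]
      _ = 1 := by rw [h3, Matrix.mul_one, e2]
  · rw [← Matrix.mul_assoc, h4, Matrix.mul_assoc, TB_comm, Matrix.mul_assoc]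
  · intro x hx
    have h5 := h x hx
    have e3 : (P * Matrix.fromBlocks W1 0 0 W2)ᴴ * G * (P * Matrix.fromBlocks W1 0 0 W2) =
        (Matrix.fromBlocks W1 0 0 W2)ᴴ * H * Matrix.fromBlocks W1 0 0 W2 := by
      rw [hH, Matrix.conjTranspose_mul]
      simp only [Matrix.mul_assoc]
    rw [e3]
    exact h5

/-- The case of a real square root. -/
theorem nice_real (hQ : QuadL F E d) (hU : BinUniv E) (hn : n = 2 * m)
    (hG : IsUnit G) (hGs : Gᴴ = G)
    (hGT : G * T = Tᴴ * G) (hGX : G * X = -(Xᴴ * G)) (hXT : X * T = -(T * X)) (hX : IsUnit X)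
    {r : E} (hr : r ≠ 0) (hT : T * T = (r * r) • 1) (hrs : star r = r)
    (hdet : ∀ c : F, (algebraMap F E c = X.det ∨ algebraMap F E c = -X.det) →
      ∃ z : E, z * star z = algebraMap F E c) : Nice m G T := by
  have h2 : (2 : E) ≠ 0 := two_ne_zero
  obtain ⟨P, P', H, B, C, h1, h3, h4, hH, hHs, hHd, hHT, hPX, hHX, hdX⟩ :=
    exists_blk hn h2 hG hGs hGT hGX hXT hX hr hT
  -- the form is block diagonal
  have hTBs : (TB m r)ᴴ = TB m r := by
    rw [TB, Matrix.fromBlocks_conjTranspose, Matrix.conjTranspose_neg,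
      Matrix.conjTranspose_smul, Matrix.conjTranspose_one, hrs, Matrix.conjTranspose_zero]
  have e := Matrix.fromBlocks_toBlocks H
  obtain ⟨G1, hG1⟩ : ∃ G1, G1 = H.toBlocks₁₁ := ⟨_, rfl⟩
  obtain ⟨G2, hG2⟩ : ∃ G2, G2 = H.toBlocks₂₂ := ⟨_, rfl⟩
  have hHB : H = Matrix.fromBlocks G1 0 0 G2 := by
    have hz : ∀ A : Matrix (Fin m) (Fin m) E, r • A = -(r • A) → A = 0 := by
      intro A hA
      have h3 : (2 * r) • A = 0 := by
        rw [mul_smul, two_smul]
        nth_rewrite 1 [hA]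
        exact neg_add_cancel _
      exact (smul_eq_zero.mp h3).resolve_left (mul_ne_zero h2 hr)
    have h5 := hHT
    rw [hTBs, ← e, TB, Matrix.fromBlocks_multiply, Matrix.fromBlocks_multiply,
      Matrix.fromBlocks_inj] at h5
    obtain ⟨-, h12, h21, -⟩ := h5
    have e12 : H.toBlocks₁₂ = 0 := by
      apply hz
      simp only [Matrix.mul_neg, Matrix.mul_smul, Matrix.mul_one, Matrix.mul_zero,
        zero_add, Matrix.zero_mul, Matrix.smul_mul, Matrix.one_mul, add_zero] at h12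
      exact h12.symm
    have e21 : H.toBlocks₂₁ = 0 := by
      apply hz
      simp only [Matrix.neg_mul, Matrix.mul_smul, Matrix.mul_one, Matrix.mul_zero,
        zero_add, Matrix.zero_mul, Matrix.smul_mul, Matrix.one_mul, add_zero] at h21
      exact h21
    rw [← e, e12, e21, hG1, hG2]
  have hs := hHs
  rw [hHB, Matrix.fromBlocks_conjTranspose, Matrix.fromBlocks_inj] at hs
  obtain ⟨hs1, -, -, hs2⟩ := hs
  have hd0 := hHd
  rw [hHB, Matrix.det_fromBlocks_zero₂₁] at hd0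
  have hd1 : G1.det ≠ 0 := left_ne_zero_of_mul hd0
  have hd2 : G2.det ≠ 0 := right_ne_zero_of_mul hd0
  -- the discriminants
  have hsk := hHX
  rw [hHB, Matrix.fromBlocks_conjTranspose, Matrix.fromBlocks_multiply,
    Matrix.fromBlocks_multiply, Matrix.fromBlocks_neg, Matrix.fromBlocks_inj] at hsk
  obtain ⟨-, hB, -, -⟩ := hsk
  simp only [Matrix.conjTranspose_zero, Matrix.mul_zero, Matrix.zero_mul, zero_add,
    add_zero] at hB
  have hBd : G1.det * B.det = star C.det * (-G2).det := by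
    have h5 := congrArg Matrix.det hB
    rw [Matrix.det_mul, ← Matrix.mul_neg, Matrix.det_mul, Matrix.det_conjTranspose] at h5
    exact h5
  have hXd0 : X.det ≠ 0 := ((Matrix.isUnit_iff_isUnit_det X).mp hX).ne_zero
  have hsq : (B.det * C.det) * (B.det * C.det) = X.det * X.det := by
    have h6 := congrArg Matrix.det (blk_sq B C)
    rw [Matrix.det_mul, Matrix.det_fromBlocks_zero₂₁, Matrix.det_mul, Matrix.det_mul] at h6
    rw [← hdX, hPX]
    linear_combination -h6
  have hBC0 : B.det * C.det ≠ 0 := by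
    intro h0
    rw [h0, zero_mul] at hsq
    exact mul_ne_zero hXd0 hXd0 hsq.symm
  have hC0 : C.det ≠ 0 := right_ne_zero_of_mul hBC0
  have hC0' : star C.det ≠ 0 := star_ne_zero.mpr hC0
  have hG1r : star G1.det = G1.det := by rw [← Matrix.det_conjTranspose, hs1]
  have hG2r : star (-G2).det = (-G2).det := by
    rw [← Matrix.det_conjTranspose, Matrix.conjTranspose_neg, hs2]
  have hreal : star (B.det * C.det) = B.det * C.det := by
    have h5 : B.det = star C.det * (-G2).det / G1.det := by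
      rw [eq_div_iff hd1, mul_comm, hBd]
    rw [h5, star_mul', star_div₀, star_mul', star_star, hG1r, hG2r]
    ring
  obtain ⟨c, hc⟩ := hQ.fix _ hreal
  obtain ⟨z, hz⟩ := hdet c (by
    rw [hc]
    exact mul_self_eq_mul_self_iff.mp hsq)
  rw [hc] at hz
  obtain ⟨Q, hQd, hQH⟩ := herm_class h2 hU (-G2) G1 (by rw [Matrix.conjTranspose_neg, hs2]) hs1
    (by
      rw [Matrix.det_neg]
      exact mul_ne_zero (pow_ne_zero _ (neg_ne_zero.mpr one_ne_zero)) hd2) hd1
    ⟨G1.det * z / C.det, by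
      rw [star_div₀, star_mul', hG1r, div_mul_div_comm, eq_div_iff (mul_ne_zero hC0 hC0')]
      have h5 : G1.det * z * (G1.det * star z) = G1.det * G1.det * (z * star z) := by ring
      rw [h5, hz]
      linear_combination (-(G1.det * C.det)) * hBd⟩
  obtain ⟨W, δ, hWu, hW⟩ := exists_diag hQ G1 hs1 hd1
  have hWd : W.det ≠ 0 := ((Matrix.isUnit_iff_isUnit_det W).mp hWu).ne_zero
  have hWd' : (Wᴴ).det ≠ 0 := by
    rw [Matrix.det_conjTranspose]
    exact star_ne_zero.mpr hWd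
  have hQd' : (Qᴴ).det ≠ 0 := by
    rw [Matrix.det_conjTranspose]
    exact star_ne_zero.mpr hQd
  refine nice_of h1 h3 h4 (W1 := Wᴴ) (W2 := Qᴴ * Wᴴ) hWd' (by
    rw [Matrix.det_mul]
    exact mul_ne_zero hQd' hWd') hH ?_
  intro x hx
  have e5 : (Matrix.fromBlocks Wᴴ 0 0 (Qᴴ * Wᴴ))ᴴ * H * Matrix.fromBlocks Wᴴ 0 0 (Qᴴ * Wᴴ) =
      Matrix.fromBlocks (Matrix.diagonal fun i => algebraMap F E (δ i)) 0 0
        (-(Matrix.diagonal fun i => algebraMap F E (δ i))) := by
    rw [hHB, Matrix.fromBlocks_conjTranspose, Matrix.fromBlocks_multiply,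
      Matrix.fromBlocks_multiply]
    simp only [Matrix.conjTranspose_conjTranspose, Matrix.conjTranspose_zero, Matrix.mul_zero,
      Matrix.zero_mul, zero_add, add_zero, Matrix.conjTranspose_mul]
    rw [hW]
    congr 1
    have h6 : W * Q * G2 * (Qᴴ * Wᴴ) = -(W * (Q * -G2 * Qᴴ) * Wᴴ) := by
      simp only [Matrix.mul_neg, Matrix.neg_mul, neg_neg, Matrix.mul_assoc]
    rw [h6, hQH, hW]
  rw [e5, XB_conj hx, XB, Matrix.fromBlocks_multiply, Matrix.fromBlocks_multiply,
    Matrix.fromBlocks_neg]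
  simp only [Matrix.mul_zero, Matrix.zero_mul, zero_add, add_zero, Matrix.mul_neg,
    Matrix.neg_mul, Matrix.diagonal_mul_diagonal, neg_zero, neg_neg]
  congr 1
  · congr 1
    funext i
    ring
  · congr 2
    funext i
    ring

/-- The case of an imaginary square root. -/
theorem nice_imag (hQ : QuadL F E d) (hn : n = 2 * m)
    (hG : IsUnit G) (hGs : Gᴴ = G)
    (hGT : G * T = Tᴴ * G) (hGX : G * X = -(Xᴴ * G)) (hXT : X * T = -(T * X)) (hX : IsUnit X)
    {r : E} (hr : r ≠ 0) (hT : T * T = (r * r) • 1) (hrs : star r = -r) : Nice m G T := by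
  have h2 : (2 : E) ≠ 0 := two_ne_zero
  obtain ⟨P, P', H, B, C, h1, h3, h4, hH, hHs, hHd, hHT, hPX, hHX, hdX⟩ :=
    exists_blk hn h2 hG hGs hGT hGX hXT hX hr hT
  -- the form is block antidiagonal
  have hTBs : (TB m r)ᴴ = -TB m r := by
    rw [TB, Matrix.fromBlocks_conjTranspose, Matrix.conjTranspose_neg,
      Matrix.conjTranspose_smul, Matrix.conjTranspose_one, hrs, Matrix.conjTranspose_zero,
      Matrix.fromBlocks_neg]
    simp
  have e := Matrix.fromBlocks_toBlocks H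
  obtain ⟨g, hg⟩ : ∃ g, g = H.toBlocks₁₂ := ⟨_, rfl⟩
  obtain ⟨g', hg'⟩ : ∃ g', g' = H.toBlocks₂₁ := ⟨_, rfl⟩
  have hHB : H = Matrix.fromBlocks 0 g g' 0 := by
    have hz : ∀ A : Matrix (Fin m) (Fin m) E, r • A = -(r • A) → A = 0 := by
      intro A hA
      have h3 : (2 * r) • A = 0 := by
        rw [mul_smul, two_smul]
        nth_rewrite 1 [hA]
        exact neg_add_cancel _
      exact (smul_eq_zero.mp h3).resolve_left (mul_ne_zero h2 hr)
    have h5 := hHT
    rw [hTBs, ← e, TB, Matrix.neg_mul, Matrix.fromBlocks_multiply, Matrix.fromBlocks_multiply,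
      Matrix.fromBlocks_neg, Matrix.fromBlocks_inj] at h5
    obtain ⟨h11, -, -, h22⟩ := h5
    have e11 : H.toBlocks₁₁ = 0 := by
      apply hz
      simp only [Matrix.mul_smul, Matrix.mul_one, Matrix.mul_zero,
        Matrix.zero_mul, Matrix.smul_mul, Matrix.one_mul, add_zero] at h11
      exact h11
    have e22 : H.toBlocks₂₂ = 0 := by
      apply hz
      simp only [Matrix.mul_neg, Matrix.neg_mul, Matrix.mul_smul, Matrix.mul_one,
        Matrix.mul_zero, zero_add, Matrix.zero_mul, Matrix.smul_mul, Matrix.one_mul,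
        neg_neg] at h22
      exact h22.symm
    rw [← e, e11, e22, hg, hg']
  have hs := hHs
  rw [hHB, Matrix.fromBlocks_conjTranspose, Matrix.fromBlocks_inj] at hs
  obtain ⟨-, hs1, -, -⟩ := hs
  -- `g'ᴴ = g`
  have hsk := hHX
  rw [hHB, Matrix.fromBlocks_conjTranspose, Matrix.fromBlocks_multiply,
    Matrix.fromBlocks_multiply, Matrix.fromBlocks_neg, Matrix.fromBlocks_inj] at hsk
  obtain ⟨hC, -, -, -⟩ := hsk
  simp only [Matrix.conjTranspose_zero, Matrix.mul_zero, Matrix.zero_mul, zero_add,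
    add_zero] at hC
  have hg's : g' = gᴴ := by rw [← hs1, Matrix.conjTranspose_conjTranspose]
  have hXd0 : X.det ≠ 0 := ((Matrix.isUnit_iff_isUnit_det X).mp hX).ne_zero
  have hsq : (B.det * C.det) * (B.det * C.det) = X.det * X.det := by
    have h6 := congrArg Matrix.det (blk_sq B C)
    rw [Matrix.det_mul, Matrix.det_fromBlocks_zero₂₁, Matrix.det_mul, Matrix.det_mul] at h6
    rw [← hdX, hPX]
    linear_combination -h6
  have hC0 : C.det ≠ 0 := by
    intro h0
    rw [h0, mul_zero, mul_zero] at hsq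
    exact mul_ne_zero hXd0 hXd0 hsq.symm
  have hg0 : g.det ≠ 0 := by
    intro h0
    have h6 : (H * H).det = 0 := by
      rw [hHB, blk_sq, Matrix.det_fromBlocks_zero₂₁, Matrix.det_mul, h0, zero_mul, zero_mul]
    rw [Matrix.det_mul] at h6
    exact mul_ne_zero hHd hHd h6
  obtain ⟨θ, hθ0, hθs, -⟩ := hQ.gen
  have hCs : (g * C)ᴴ = -(g * C) := by
    rw [hC, hg's, Matrix.conjTranspose_neg, Matrix.conjTranspose_mul,
      Matrix.conjTranspose_conjTranspose, Matrix.conjTranspose_conjTranspose, hC, hg's]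
  obtain ⟨W, δ, hWu, hW⟩ := exists_diag hQ (θ • (g * C)) (by
    rw [Matrix.conjTranspose_smul, hCs, hθs, smul_neg, neg_smul, neg_neg]) (by
    rw [Matrix.det_smul, Matrix.det_mul]
    exact mul_ne_zero (pow_ne_zero _ hθ0) (mul_ne_zero hg0 hC0))
  have hWd : W.det ≠ 0 := ((Matrix.isUnit_iff_isUnit_det W).mp hWu).ne_zero
  have hWd' : (Wᴴ).det ≠ 0 := by
    rw [Matrix.det_conjTranspose]
    exact star_ne_zero.mpr hWd
  have hWC : W * (g * C) * Wᴴ = Matrix.diagonal fun i => θ⁻¹ * algebraMap F E (δ i) := by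
    have h6 : W * (g * C) * Wᴴ = θ⁻¹ • (W * (θ • (g * C)) * Wᴴ) := by
      rw [Matrix.mul_smul, Matrix.smul_mul, smul_smul, inv_mul_cancel₀ hθ0, one_smul]
    rw [h6, hW, ← Matrix.diagonal_smul]
    rfl
  refine nice_of h1 h3 h4 (W1 := Wᴴ) (W2 := C * Wᴴ) hWd' (by
    rw [Matrix.det_mul]
    exact mul_ne_zero hC0 hWd') hH ?_
  intro x hx
  have e5 : (Matrix.fromBlocks Wᴴ 0 0 (C * Wᴴ))ᴴ * H * Matrix.fromBlocks Wᴴ 0 0 (C * Wᴴ) =
      Matrix.fromBlocks 0 (Matrix.diagonal fun i => θ⁻¹ * algebraMap F E (δ i))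
        (-(Matrix.diagonal fun i => θ⁻¹ * algebraMap F E (δ i))) 0 := by
    rw [hHB, Matrix.fromBlocks_conjTranspose, Matrix.fromBlocks_multiply,
      Matrix.fromBlocks_multiply]
    simp only [Matrix.conjTranspose_conjTranspose, Matrix.conjTranspose_zero, Matrix.mul_zero,
      Matrix.zero_mul, zero_add, add_zero, Matrix.conjTranspose_mul]
    have h6 : W * g * (C * Wᴴ) = W * (g * C) * Wᴴ := by simp only [Matrix.mul_assoc]
    have h7 : W * Cᴴ * g' * Wᴴ = -(W * (g * C) * Wᴴ) := by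
      rw [hC]
      simp only [Matrix.mul_neg, Matrix.neg_mul, neg_neg, Matrix.mul_assoc]
    rw [h6, h7, hWC]
  rw [e5, XB_conj hx, XB, Matrix.fromBlocks_multiply, Matrix.fromBlocks_multiply,
    Matrix.fromBlocks_neg]
  simp only [Matrix.mul_zero, Matrix.zero_mul, zero_add, add_zero, Matrix.mul_neg,
    Matrix.neg_mul, Matrix.diagonal_mul_diagonal, neg_zero, neg_neg]
  congr 1
  · congr 1
    funext i
    ring
  · congr 2
    funext i
    ring

end cases

end Vale.Agent.P011.H248
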